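import Vale.Agent.P158.Box

/-! The boundary parametrisation. -/

open scoped NNReal ENNReal
open MeasureTheory

namespace Vale.Agent.P158

theorem bd_mem {N : ℕ} (hN : 1 ≤ N) (t : ℤ) : bd N t ∈ ring 0 N := by
  sorry

theorem bd_mem_ball {N : ℕ} (hN : 1 ≤ N) (t : ℤ) : bd N t ∈ ball 0 N :=
  ring_subset_ball _ _ (bd_mem hN t)

theorem bd_adj {N : ℕ} (hN : 1 ≤ N) (t : ℤ) : lat.Adj (bd N t) (bd N (t + 1)) := by
  sorry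

theorem bd_per (N : ℕ) (t : ℤ) : bd N (t + 8 * N) = bd N t := by
  sorry

theorem bd_inj {N : ℕ} (hN : 1 ≤ N) {i j : ℤ} (h1 : i < j) (h2 : j < i + 8 * N) :
    bd N i ≠ bd N j := by
  sorry

theorem bd_surj {N : ℕ} (hN : 1 ≤ N) {v : V} (hv : v ∈ ring 0 N) (i : ℤ) :
    ∃ t, i ≤ t ∧ t < i + 8 * N ∧ bd N t = v := by
  sorry

theorem card_ring_le (c : V) {n : ℕ} (hn : 1 ≤ n) : (ring c n).card ≤ 8 * n := by
  sorry

theorem nrm_bd_sub {N : ℕ} (hN : 1 ≤ N) {i j : ℤ} (h : i ≤ j) :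
    (nrm (bd N j - bd N i) : ℤ) ≤ j - i := by
  sorry

/-- the arc between two indices -/
theorem exists_arc {N : ℕ} (hN : 1 ≤ N) {i j : ℤ} (h : i ≤ j) :
    ∃ p : lat.Walk (bd N i) (bd N j),
      (∀ z, z ∈ p.support ↔ ∃ t, i ≤ t ∧ t ≤ j ∧ z = bd N t) ∧
      p.edges = (List.range (j - i).toNat).map fun k : ℕ => s(bd N (i + k), bd N (i + k + 1)) := by
  sorry

theorem bd_right {N : ℕ} (hN : 1 ≤ N) {y : ℤ} (h1 : -(N : ℤ) ≤ y) (h2 : y ≤ N) :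
    bd N (y + N) = ((N : ℤ), y) := by
  sorry

theorem bd_top {N : ℕ} (hN : 1 ≤ N) {x : ℤ} (h1 : -(N : ℤ) ≤ x) (h2 : x ≤ N) :
    bd N (3 * N - x) = (x, (N : ℤ)) := by
  sorry

theorem bd_left {N : ℕ} (hN : 1 ≤ N) {y : ℤ} (h1 : -(N : ℤ) ≤ y) (h2 : y ≤ N) :
    bd N (5 * N - y) = (-(N : ℤ), y) := by
  sorry

theorem bd_bot {N : ℕ} (hN : 1 ≤ N) {x : ℤ} (h1 : -(N : ℤ) ≤ x) (h2 : x ≤ N) :
    bd N (7 * N + x) = (x, -(N : ℤ)) := by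
  sorry

end Vale.Agent.P158
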