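import Vale.Agent.P158.Defs

/-! Boxes, rings and elementary facts about lattice walks. -/

open scoped NNReal ENNReal
open MeasureTheory

namespace Vale.Agent.P158

theorem mem_ball' {c v : V} {n : ℕ} :
    v ∈ ball c n ↔ c.1 - n ≤ v.1 ∧ v.1 ≤ c.1 + n ∧ c.2 - n ≤ v.2 ∧ v.2 ≤ c.2 + n := by
  simp [ball, and_assoc]

theorem nrm_le_iff {v : V} {n : ℕ} :
    nrm v ≤ n ↔ -(n : ℤ) ≤ v.1 ∧ v.1 ≤ n ∧ -(n : ℤ) ≤ v.2 ∧ v.2 ≤ n := by
  unfold nrm; omega

theorem mem_ball {c v : V} {n : ℕ} : v ∈ ball c n ↔ nrm (v - c) ≤ n := by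
  rw [mem_ball', nrm_le_iff]; simp only [Prod.fst_sub, Prod.snd_sub]; omega

theorem mem_ball_zero {v : V} {n : ℕ} : v ∈ ball 0 n ↔ nrm v ≤ n := by
  rw [mem_ball, sub_zero]

theorem mem_ring {c v : V} {n : ℕ} : v ∈ ring c n ↔ nrm (v - c) = n := by
  simp only [ring, Finset.mem_filter, mem_ball]; omega

theorem mem_ring_zero {v : V} {n : ℕ} : v ∈ ring 0 n ↔ nrm v = n := by
  rw [mem_ring, sub_zero]

theorem ring_subset_ball (c : V) (n : ℕ) : ring c n ⊆ ball c n := Finset.filter_subset _ _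

theorem self_mem_ball (c : V) (n : ℕ) : c ∈ ball c n := by
  rw [mem_ball']; omega

theorem nrm_add_le (u v : V) : nrm (u + v) ≤ nrm u + nrm v := by
  unfold nrm; simp only [Prod.fst_add, Prod.snd_add]; omega

theorem nrm_sub_comm (u v : V) : nrm (u - v) = nrm (v - u) := by
  unfold nrm; simp only [Prod.fst_sub, Prod.snd_sub]; omega

theorem nrm_tri (u v w : V) : nrm (u - w) ≤ nrm (u - v) + nrm (v - w) := by
  unfold nrm; simp only [Prod.fst_sub, Prod.snd_sub]; omega

theorem nrm_le_add (u v : V) : nrm u ≤ nrm v + nrm (u - v) := by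
  unfold nrm; simp only [Prod.fst_sub, Prod.snd_sub]; omega

theorem nrm_eq_zero {v : V} : nrm v = 0 ↔ v = 0 := by
  unfold nrm; rw [Prod.ext_iff]; simp only [Prod.fst_zero, Prod.snd_zero]; omega

@[simp] theorem nrm_zero : nrm 0 = 0 := nrm_eq_zero.2 rfl

theorem ball_subset {c c' : V} {n n' : ℕ} (h : nrm (c - c') + n ≤ n') : ball c n ⊆ ball c' n' := by
  intro v hv
  rw [mem_ball] at hv ⊢
  have := nrm_tri v c c'
  omega

theorem ball_mono (c : V) {n n' : ℕ} (h : n ≤ n') : ball c n ⊆ ball c n' :=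
  ball_subset (by simpa using h)

theorem card_ball (c : V) (n : ℕ) : (ball c n).card = (2 * n + 1) ^ 2 := by
  have h : ∀ a : ℤ, (a + n + 1 - (a - n)).toNat = 2 * n + 1 := fun a => by omega
  simp [ball, Finset.card_product, h, sq]

theorem card_sym2_ball (c : V) (n : ℕ) : (ball c n).sym2.card ≤ (2 * n + 1) ^ 4 := by
  sorry

theorem nrm_adj {u v : V} (h : lat.Adj u v) : nrm (v - u) = 1 := by
  rw [lat_adj] at h
  unfold nrm; simp only [Prod.fst_sub, Prod.snd_sub]
  rw [Int.abs_eq_natAbs, Int.abs_eq_natAbs] at h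
  omega

theorem adj_cases {u v : V} (h : lat.Adj u v) :
    v = u + (1, 0) ∨ u = v + (1, 0) ∨ v = u + (0, 1) ∨ u = v + (0, 1) := by
  sorry

theorem nrm_le_length {u v : V} (p : lat.Walk u v) : nrm (v - u) ≤ p.length := by
  sorry

theorem nrm_le_of_mem_support {u v z : V} (p : lat.Walk u v) (hz : z ∈ p.support) :
    nrm (z - u) ≤ p.length := by
  sorry

theorem nrm_getVert {u v : V} (p : lat.Walk u v) {i j : ℕ} (h : i ≤ j) :
    nrm (p.getVert j - p.getVert i) ≤ j - i := by
  sorry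

theorem step_getVert {u v : V} (p : lat.Walk u v) (i : ℕ) :
    |(p.getVert (i + 1)).1 - (p.getVert i).1| + |(p.getVert (i + 1)).2 - (p.getVert i).2| ≤ 1 := by
  sorry

theorem In.mono {S S' : Finset V} {u v : V} {p : lat.Walk u v} (h : In S p) (hS : S ⊆ S') :
    In S' p := fun z hz => hS (h z hz)

theorem In.start {S : Finset V} {u v : V} {p : lat.Walk u v} (h : In S p) : u ∈ S :=
  h u p.start_mem_support

theorem In.finish {S : Finset V} {u v : V} {p : lat.Walk u v} (h : In S p) : v ∈ S :=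
  h v p.end_mem_support

theorem in_append {S : Finset V} {u v w : V} {p : lat.Walk u v} {q : lat.Walk v w} :
    In S (p.append q) ↔ In S p ∧ In S q := by
  sorry

theorem in_reverse {S : Finset V} {u v : V} {p : lat.Walk u v} : In S p.reverse ↔ In S p := by
  simp [In]

theorem mem_support_take {u v z : V} (p : lat.Walk u v) (n : ℕ) :
    z ∈ (p.take n).support ↔ ∃ i ≤ n, p.getVert i = z := by
  sorry

theorem mem_support_drop {u v z : V} (p : lat.Walk u v) (n : ℕ) :
    z ∈ (p.drop n).support ↔ ∃ i, n ≤ i ∧ p.getVert i = z := by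
  sorry

theorem In.take {S : Finset V} {u v : V} {p : lat.Walk u v} (h : In S p) (n : ℕ) :
    In S (p.take n) := by
  sorry

theorem In.drop {S : Finset V} {u v : V} {p : lat.Walk u v} (h : In S p) (n : ℕ) :
    In S (p.drop n) := by
  sorry

theorem In.bypass {S : Finset V} {u v : V} {p : lat.Walk u v} (h : In S p) : In S p.bypass :=
  fun z hz => h z (p.support_bypass_subset_support hz)

theorem In.mem_sym2 {S : Finset V} {u v : V} {p : lat.Walk u v} (h : In S p) {e : Ed}
    (he : e ∈ p.edges) : e ∈ S.sym2 := by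
  sorry

theorem in_ball_length {u v : V} (p : lat.Walk u v) : In (ball u p.length) p := by
  sorry

theorem exists_walk_ball {c u v : V} {n : ℕ} (hu : u ∈ ball c n) (hv : v ∈ ball c n) :
    ∃ p : lat.Walk u v, In (ball c n) p ∧ p.length ≤ 4 * n := by
  sorry

/-- straight horizontal segment -/
theorem exists_walk_hor (a b y : ℤ) : ∃ p : lat.Walk (a, y) (b, y),
    ∀ z ∈ p.support, z.2 = y ∧ min a b ≤ z.1 ∧ z.1 ≤ max a b := by
  sorry

/-- straight vertical segment -/
theorem exists_walk_ver (x a b : ℤ) : ∃ p : lat.Walk (x, a) (x, b),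
    ∀ z ∈ p.support, z.1 = x ∧ min a b ≤ z.2 ∧ z.2 ≤ max a b := by
  sorry

/-- first visit of a level by a function that changes by at most one along edges -/
theorem first_hit {u v : V} (p : lat.Walk u v) (f : V → ℤ)
    (hf : ∀ a b, lat.Adj a b → |f b - f a| ≤ 1) (m : ℤ) (hu : f u ≤ m) (hv : m ≤ f v) :
    ∃ i ≤ p.length, f (p.getVert i) = m ∧ ∀ j < i, f (p.getVert j) < m := by
  sorry

/-- last visit of a level -/
theorem last_hit {u v : V} (p : lat.Walk u v) (f : V → ℤ)
    (hf : ∀ a b, lat.Adj a b → |f b - f a| ≤ 1) (m : ℤ) (hu : f u ≤ m) (hv : m ≤ f v) :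
    ∃ i ≤ p.length, f (p.getVert i) = m ∧ ∀ j, i < j → j ≤ p.length → m < f (p.getVert j) := by
  sorry

theorem first_exit {u v c : V} (p : lat.Walk u v) {n : ℕ} (hu : nrm (u - c) ≤ n)
    (hv : n ≤ nrm (v - c)) :
    ∃ i ≤ p.length, nrm (p.getVert i - c) = n ∧ ∀ j < i, nrm (p.getVert j - c) < n := by
  sorry

theorem last_visit {u v c : V} (p : lat.Walk u v) {n : ℕ} (hu : nrm (u - c) ≤ n)
    (hv : n ≤ nrm (v - c)) :
    ∃ i ≤ p.length, nrm (p.getVert i - c) = n ∧
      ∀ j, i < j → j ≤ p.length → n < nrm (p.getVert j - c) := by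
  sorry

theorem first_entry {u v c : V} (p : lat.Walk u v) {n : ℕ} (hu : n ≤ nrm (u - c))
    (hv : nrm (v - c) ≤ n) :
    ∃ i ≤ p.length, nrm (p.getVert i - c) = n ∧ ∀ j < i, n < nrm (p.getVert j - c) := by
  sorry

/-- two walks with a common vertex are covered by one walk -/
theorem exists_merge (ω : Cfg) {u v u' v' : V} (p : lat.Walk u v) (q : lat.Walk u' v')
    (h : ∃ z ∈ p.support, z ∈ q.support) : ∃ f : lat.Walk u v,
    (∀ z, z ∈ f.support ↔ z ∈ p.support ∨ z ∈ q.support) ∧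
      cost ω f ≤ cost ω p + 2 * cost ω q := by
  sorry

instance countable_walk (u v : V) : Countable (lat.Walk u v) := by
  sorry

end Vale.Agent.P158
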