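import Vale.Agent.P158.Defs

/-! The calculus of upper expectations. -/

open scoped NNReal ENNReal
open MeasureTheory

namespace Vale.Agent.P158

variable {μ : Measure Cfg} [IsProbabilityMeasure μ] {f f' : Cfg → ℝ} {C C' : ℝ}

theorem ind_nonneg (P : Prop) : 0 ≤ ind P := by unfold ind; split_ifs <;> norm_num

theorem ind_le_one (P : Prop) : ind P ≤ 1 := by unfold ind; split_ifs <;> norm_num

theorem ind_pos {P : Prop} (h : P) : ind P = 1 := by simp [ind, h]

theorem ind_neg {P : Prop} (h : ¬ P) : ind P = 0 := by simp [ind, h]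

theorem ind_mono {P Q : Prop} (h : P → Q) : ind P ≤ ind Q := by
  sorry

theorem num_eq_sum {α : Type} (s : Finset α) (P : α → Prop) :
    (num s P : ℝ) = ∑ a ∈ s, ind (P a) := by
  sorry

theorem num_le_card {α : Type} (s : Finset α) (P : α → Prop) : num s P ≤ s.card := by
  sorry

theorem num_mono {α : Type} {s s' : Finset α} {P Q : α → Prop}
    (h : ∀ a ∈ s, P a → a ∈ s' ∧ Q a) : num s P ≤ num s' Q := by
  sorry

theorem num_or_le {α : Type} (s : Finset α) (P Q : α → Prop) :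
    num s (fun a => P a ∨ Q a) ≤ num s P + num s Q := by
  sorry

theorem card_le_num {α : Type} {s t : Finset α} {P : α → Prop} (h : ∀ a ∈ t, a ∈ s ∧ P a) :
    t.card ≤ num s P := by
  sorry

theorem num_le_of_inj {α β : Type} {s : Finset α} {t : Finset β} {P : α → Prop} {Q : β → Prop}
    (φ : α → β) (h : ∀ a ∈ s, P a → φ a ∈ t ∧ Q (φ a))
    (hi : ∀ a ∈ s, ∀ b ∈ s, P a → P b → φ a = φ b → a = b) : num s P ≤ num t Q := by
  sorry

/-- double counting -/
theorem num_mul_le {α β : Type} (s : Finset α) (t : Finset β) (P : α → Prop) (R : α → β → Prop)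
    (m : ℝ) (h : ∀ a ∈ s, P a → m ≤ num t (R a)) :
    m * num s P ≤ ∑ b ∈ t, (num s fun a => P a ∧ R a b : ℝ) := by
  sorry

theorem Dom.mono_ae (h : Dom μ f C) (hf : ∀ᵐ ω ∂μ, f' ω ≤ f ω) (hC : C ≤ C') : Dom μ f' C' := by
  sorry

theorem Dom.mono (h : Dom μ f C) (hf : ∀ ω, f' ω ≤ f ω) (hC : C ≤ C') : Dom μ f' C' :=
  h.mono_ae (Filter.Eventually.of_forall hf) hC

theorem Dom.add (h : Dom μ f C) (h' : Dom μ f' C') : Dom μ (fun ω => f ω + f' ω) (C + C') := by
  sorry

theorem Dom.smul (h : Dom μ f C) {c : ℝ} (hc : 0 ≤ c) : Dom μ (fun ω => c * f ω) (c * C) := by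
  sorry

theorem dom_const (μ : Measure Cfg) [IsProbabilityMeasure μ] (hC : 0 ≤ C) :
    Dom μ (fun _ => C) C := by
  sorry

theorem dom_sum {α : Type} (s : Finset α) {F : α → Cfg → ℝ} {c : α → ℝ}
    (h : ∀ a ∈ s, Dom μ (F a) (c a)) : Dom μ (fun ω => ∑ a ∈ s, F a ω) (∑ a ∈ s, c a) := by
  sorry

/-- Hint: indicator of `toMeasurable μ {ω | P ω}` -/
theorem dom_ind (μ : Measure Cfg) [IsProbabilityMeasure μ] (P : Cfg → Prop) :
    Dom μ (fun ω => ind (P ω)) (μ.real {ω | P ω}) := by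
  sorry

theorem dom_num {α : Type} (μ : Measure Cfg) [IsProbabilityMeasure μ] (s : Finset α)
    (P : α → Cfg → Prop) :
    Dom μ (fun ω => num s fun a => P a ω) (∑ a ∈ s, μ.real {ω | P a ω}) := by
  sorry

/-- elimination for measurable events -/
theorem Dom.sum_le {α : Type} (s : Finset α) {P : α → Cfg → Prop}
    (hP : ∀ a ∈ s, MeasurableSet {ω | P a ω}) (h : Dom μ (fun ω => num s fun a => P a ω) C) :
    ∑ a ∈ s, μ.real {ω | P a ω} ≤ C := by
  sorry

theorem Dom.markov (h : Dom μ f C) {a : ℝ} (ha : 0 < a) : μ.real {ω | a ≤ f ω} ≤ C / a := by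
  sorry

/-- counting lemma: `S` is arbitrary, the `A a` are measurable. Hint: `μ (A a ∩ S)` equals
`(μ.restrict S) (A a)` by `Measure.restrict_apply`; integrate the sum of the indicators against
`μ.restrict S`; the measurable set where this sum exceeds `C` meets `S` in a null set. -/
theorem cnt_lemma {α : Type} (s : Finset α) {A : α → Set Cfg} (hA : ∀ a ∈ s, MeasurableSet (A a))
    (S : Set Cfg) (hC : 0 ≤ C) (h : ∀ᵐ ω ∂μ, ω ∈ S → (num s fun a => ω ∈ A a : ℝ) ≤ C) :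
    ∑ a ∈ s, μ.real (A a ∩ S) ≤ C * μ.real S := by
  sorry

theorem real_exists_le {α : Type} (μ : Measure Cfg) [IsProbabilityMeasure μ] (s : Finset α)
    (P : α → Cfg → Prop) :
    μ.real {ω | ∃ a ∈ s, P a ω} ≤ ∑ a ∈ s, μ.real {ω | P a ω} := by
  sorry

theorem real_or_le (μ : Measure Cfg) [IsProbabilityMeasure μ] (P Q : Cfg → Prop) :
    μ.real {ω | P ω ∨ Q ω} ≤ μ.real {ω | P ω} + μ.real {ω | Q ω} := by
  sorry

theorem real_not_and_le (μ : Measure Cfg) [IsProbabilityMeasure μ] (P Q : Cfg → Prop) :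
    μ.real {ω | ¬ (P ω ∧ Q ω)} ≤ μ.real {ω | ¬ P ω} + μ.real {ω | ¬ Q ω} := by
  sorry

end Vale.Agent.P158
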