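import Vale.Agent.P158.Box

/-! Independence, symmetries and restriction. -/

open scoped NNReal ENNReal
open MeasureTheory

namespace Vale.Agent.P158

variable {G : Measure ℝ≥0} [IsProbabilityMeasure G]

/-- the splitting of the coordinates. Hint: `Measure.eq_infinitePi` for the inverse map. -/
theorem measurePreserving_split (G : Measure ℝ≥0) [IsProbabilityMeasure G] (A : Set Ed)
    [DecidablePred (· ∈ A)] :
    MeasurePreserving (MeasurableEquiv.piEquivPiSubtypeProd (fun _ : Ed => ℝ≥0) (· ∈ A)) (mu G)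
      ((Measure.infinitePi fun _ : {e // e ∈ A} => G).prod
        (Measure.infinitePi fun _ : {e // e ∉ A} => G)) := by
  sorry

/-- no measurability is needed: `Measure.prod_prod` and `measure_preimage_equiv` -/
theorem real_inter_det {A : Set Ed} {E E' : Set Cfg} (h : Det A E) (h' : Det Aᶜ E') :
    (mu G).real (E ∩ E') = (mu G).real E * (mu G).real E' := by
  sorry

theorem Det.mono {A A' : Set Ed} {E : Set Cfg} (h : Det A E) (hA : A ⊆ A') : Det A' E :=
  fun ω ω' he => h ω ω' fun e h1 => he e (hA h1)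

theorem Det.compl {A : Set Ed} {E : Set Cfg} (h : Det A E) : Det A Eᶜ :=
  fun ω ω' he h1 h2 => h1 (h ω' ω (fun e h3 => (he e h3).symm) h2)

theorem real_iInter_det (t : ℕ) (A : ℕ → Set Ed) (E : ℕ → Set Cfg)
    (hA : ∀ i j, i < j → j < t → Disjoint (A i) (A j)) (hE : ∀ i < t, Det (A i) (E i))
    {p : ℝ} (hp : ∀ i < t, (mu G).real (E i) ≤ p) :
    (mu G).real {ω | ∀ i < t, ω ∈ E i} ≤ p ^ t := by
  sorry

theorem mu_restrict_edges (E : Set (lat.edgeSet → ℝ≥0)) :
    mu G {ω | (fun e : lat.edgeSet => ω e.1) ∈ E} =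
      Measure.infinitePi (fun _ : lat.edgeSet => G) E := by
  sorry

/-- Hint: `Measure.infinitePi_map_piCongrLeft` and `measure_preimage_equiv` -/
theorem mu_pull (φ : V ≃ V) (E : Set Cfg) : mu G (pull φ ⁻¹' E) = mu G E := by
  sorry

theorem real_pull (φ : V ≃ V) (P : Cfg → Prop) :
    (mu G).real {ω | P (pull φ ω)} = (mu G).real {ω | P ω} := by
  sorry

theorem real_forall_mem (Y : Finset Ed) {B : Set ℝ≥0} (hB : MeasurableSet B) :
    (mu G).real {ω | ∀ e ∈ Y, ω e ∈ B} = G.real B ^ Y.card := by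
  sorry

theorem lintegral_prod_coord (Y : Finset Ed) {f : ℝ≥0 → ℝ≥0∞} (hf : Measurable f) :
    ∫⁻ ω, ∏ e ∈ Y, f (ω e) ∂mu G = (∫⁻ t, f t ∂G) ^ Y.card := by
  sorry

theorem real_not_cheap (x : V) (D : ℕ) (M : ℝ) :
    (mu G).real {ω | ¬ Cheap x D M ω} ≤ (2 * D + 1) ^ 4 * G.real {t | M < (t : ℝ)} := by
  sorry

/-- translation by `c` as a graph automorphism -/
def shiftIso (c : V) : lat ≃g lat where
  toEquiv := Equiv.addRight c
  map_rel_iff' := by
    intro a b
    simp [lat_adj]

/-- exchange of the coordinates as a graph automorphism -/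
def swapIso : lat ≃g lat where
  toEquiv := Equiv.prodComm ℤ ℤ
  map_rel_iff' := by
    intro a b
    simp [lat_adj, add_comm]

theorem cost_map (φ : lat ≃g lat) (ω : Cfg) {u v : V} (p : lat.Walk u v) :
    cost ω (p.map φ.toHom) = cost (pull φ.toEquiv ω) p := by
  sorry

theorem mem_ball_add {c d v : V} {n : ℕ} : v + d ∈ ball (c + d) n ↔ v ∈ ball c n := by
  simp [mem_ball]

theorem isGeo_shift (d c : V) (n : ℕ) (ω : Cfg) {u v : V} (p : lat.Walk u v) :
    IsGeo (ball (c + d) n) ω (p.map (shiftIso d).toHom) ↔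
      IsGeo (ball c n) (pull (Equiv.addRight d) ω) p := by
  sorry

end Vale.Agent.P158
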