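import Vale.Agent.P158.Rect
import Vale.Agent.P158.Ind
import Vale.Agent.P158.DomC

/-! Open crossings of long rectangles are very likely. -/

open scoped NNReal ENNReal
open MeasureTheory

namespace Vale.Agent.P158

variable {G : Measure ℝ≥0} [IsProbabilityMeasure G]

theorem vc_iff_hc (M : ℝ≥0) (x : V) (a b : ℕ) (ω : Cfg) :
    VC M x a b ω ↔ HC M (x.2, x.1) b a (pull (Equiv.prodComm ℤ ℤ) ω) := by
  sorry

theorem VC.square {M : ℝ≥0} {x : V} {n : ℕ} {ω : Cfg} (hn : 1 ≤ n) (h : VC M x n (8 * n) ω) :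
    VC M x n n ω := by
  sorry

/-- Hint: `cross_meet` in the two squares and `exists_join` four times -/
theorem hc_glue {M : ℝ≥0} {x : V} {n : ℕ} {ω : Cfg} (hn : 1 ≤ n) (h1 : HC M x (8 * n) n ω)
    (h2 : HC M (x.1 + 7 * n, x.2) (8 * n) n ω) (h3 : HC M (x.1 + 8 * n, x.2) (8 * n) n ω)
    (h4 : VC M (x.1 + 7 * n, x.2) n n ω) (h5 : VC M (x.1 + 8 * n, x.2) n n ω) :
    HC M x (16 * n) n ω := by
  sorry

theorem det_hc (M : ℝ≥0) (x : V) (a b : ℕ) :
    Det {e | e ∈ (rect x a b).sym2} {ω | HC M x a b ω} := by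
  sorry

theorem det_vc (M : ℝ≥0) (x : V) (a b : ℕ) :
    Det {e | e ∈ (rect x a b).sym2} {ω | VC M x a b ω} := by
  sorry

/-- Hint: induction on `k`. Base: seven edges. Step: the two strips `rect x (16 n) n` and
`rect (x.1, x.2 + n) (16 n) n` are disjoint, so their failures are independent (`real_inter_det`),
each of probability at most `5 φ`. The vertical statement follows by `vc_iff_hc` and `real_pull`. -/
theorem cross_bound {M : ℝ≥0} (hM : G.real {t | (M : ℝ) < t} ≤ 1 / 11200) (k : ℕ) (x : V) :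
    (mu G).real {ω | ¬ HC M x (8 * 2 ^ k) (2 ^ k) ω} ≤ (1 / 64) ^ (2 ^ k) / 25 ∧
    (mu G).real {ω | ¬ VC M x (2 ^ k) (8 * 2 ^ k) ω} ≤ (1 / 64) ^ (2 ^ k) / 25 := by
  sorry

theorem sh_bound {M : ℝ≥0} (hM : G.real {t | (M : ℝ) < t} ≤ 1 / 11200) (k : ℕ) (x : V) :
    (mu G).real {ω | ¬ Sh M x (2 ^ k) ω} ≤ (1 / 64) ^ (2 ^ k) / 5 := by
  sorry

theorem det_sh (M : ℝ≥0) (x : V) (n : ℕ) :
    Det {e | e ∈ (ball x (8 * n)).sym2} {ω | Sh M x n ω} := by
  sorry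

end Vale.Agent.P158
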