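import Vale.Agent.P158.Model

/-! Definitions for the proof that planar first-passage percolation has no bigeodesics.
See skel/P158/BLUEPRINT.md. -/

open scoped NNReal ENNReal
open MeasureTheory

namespace Vale.Agent.P158

noncomputable section

abbrev Ed : Type := Sym2 V
abbrev Cfg : Type := Ed → ℝ≥0

/-- The product law on configurations (all unordered pairs get a weight; only edges matter). -/
def mu (G : Measure ℝ≥0) : Measure Cfg := Measure.infinitePi fun _ : Ed => G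

instance (G : Measure ℝ≥0) [IsProbabilityMeasure G] : IsProbabilityMeasure (mu G) := by
  unfold mu; infer_instance

/-- sup norm -/
def nrm (v : V) : ℕ := max v.1.natAbs v.2.natAbs

def ball (c : V) (n : ℕ) : Finset V :=
  Finset.Icc (c.1 - n) (c.1 + n) ×ˢ Finset.Icc (c.2 - n) (c.2 + n)

def ring (c : V) (n : ℕ) : Finset V := (ball c n).filter fun v => nrm (v - c) = n

/-- periodic counterclockwise parametrisation (period `8 N`) of `ring 0 N` -/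
def bd (N : ℕ) (t : ℤ) : V :=
  if t % (8 * N) ≤ 2 * N then (N, t % (8 * N) - N)
  else if t % (8 * N) ≤ 4 * N then (3 * N - t % (8 * N), N)
  else if t % (8 * N) ≤ 6 * N then (-N, 5 * N - t % (8 * N))
  else (t % (8 * N) - 7 * N, -N)

def cost (ω : Cfg) {u v : V} (p : lat.Walk u v) : ℝ :=
  (p.edges.map fun e => (ω e : ℝ)).sum

open Classical in
/-- number of edges (with multiplicity) of `p` whose weight lies in `F` -/
def cnt (F : Set ℝ≥0) (ω : Cfg) {u v : V} (p : lat.Walk u v) : ℕ :=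
  p.edges.countP fun e => decide (ω e ∈ F)

def In (S : Finset V) {u v : V} (p : lat.Walk u v) : Prop := ∀ z ∈ p.support, z ∈ S

def IsGeo (S : Finset V) (ω : Cfg) {u v : V} (p : lat.Walk u v) : Prop :=
  In S p ∧ ∀ q : lat.Walk u v, In S q → cost ω p ≤ cost ω q

theorem lat_adj {u v : V} : lat.Adj u v ↔ |u.1 - v.1| + |u.2 - v.2| = 1 := Iff.rfl

theorem lat_reach (u v : V) : lat.Reachable u v := by
  have h1 : ∀ (a b : ℤ) (n : ℤ), lat.Reachable (a, b) (a + n, b) := by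
    intro a b n
    induction n using Int.induction_on with
    | zero => simp
    | succ k ih =>
      refine ih.trans (SimpleGraph.Adj.reachable ?_)
      rw [lat_adj]; simp
    | pred k ih =>
      refine ih.trans (SimpleGraph.Adj.reachable ?_)
      rw [lat_adj]; simp
  have h2 : ∀ (a b : ℤ) (n : ℤ), lat.Reachable (a, b) (a, b + n) := by
    intro a b n
    induction n using Int.induction_on with
    | zero => simp
    | succ k ih =>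
      refine ih.trans (SimpleGraph.Adj.reachable ?_)
      rw [lat_adj]; simp
    | pred k ih =>
      refine ih.trans (SimpleGraph.Adj.reachable ?_)
      rw [lat_adj]; simp
  have e1 := h1 u.1 u.2 (v.1 - u.1)
  have e2 := h2 (u.1 + (v.1 - u.1)) u.2 (v.2 - u.2)
  have e3 := e1.trans e2
  simpa using e3

instance (u v : V) : Nonempty (lat.Walk u v) := lat_reach u v

/-- a chosen self-avoiding geodesic of the box `ball 0 N` -/
def geo (N : ℕ) (ω : Cfg) (u v : V) : lat.Walk u v :=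
  Classical.epsilon fun p : lat.Walk u v => p.IsPath ∧ IsGeo (ball 0 N) ω p

/-- passage time restricted to the box `ball 0 N` -/
def T (N : ℕ) (ω : Cfg) (u v : V) : ℝ := cost ω (geo N ω u v)

def len (N : ℕ) (ω : Cfg) (u v : V) : ℕ := (geo N ω u v).length

/-- `x` lies on a geodesic of the box from `u` to `v` -/
def Btw (N : ℕ) (ω : Cfg) (u x v : V) : Prop :=
  x ∈ ball 0 N ∧ T N ω u x + T N ω x v = T N ω u v

/-- generic configurations -/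
def Gen (ω : Cfg) : Prop := LinearIndependent ℤ fun e : Ed => (ω e : ℝ)

/-- Peierls event -/
def Pe (F : Set ℝ≥0) (x : V) (r n0 θ : ℕ) (ω : Cfg) : Prop :=
  ∀ u ∈ ball x r, ∀ (v : V) (q : lat.Walk u v), q.IsPath → n0 ≤ q.length →
    8 * cnt Fᶜ ω q ≤ q.length + 8 * θ

/-- every self-avoiding path of length `L` starting in `ball x r` has `k` edges in `F` -/
def PF (F : Set ℝ≥0) (x : V) (r L k : ℕ) (ω : Cfg) : Prop :=
  ∀ u ∈ ball x r, ∀ (v : V) (q : lat.Walk u v), q.IsPath → q.length = L → k ≤ cnt F ω q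

def Cheap (x : V) (D : ℕ) (M : ℝ) (ω : Cfg) : Prop :=
  ∀ u ∈ ball x D, ∀ v ∈ ball x D, (ω s(u, v) : ℝ) ≤ M

/-- a cheap walk in the annulus that meets every walk crossing the annulus -/
def Fence (A : ℝ) (x : V) (r : ℕ) (ω : Cfg) : Prop :=
  ∃ (u v : V) (f : lat.Walk u v), (∀ z ∈ f.support, r < nrm (z - x) ∧ nrm (z - x) < 2 * r) ∧
    cost ω f ≤ A * r ∧
    ∀ (a b : V) (p : lat.Walk a b), nrm (a - x) ≤ r → 2 * r ≤ nrm (b - x) →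
      ∃ z ∈ p.support, z ∈ f.support

def Good (A : ℝ) (b0 : ℝ≥0) (x : V) (r θ : ℕ) (ω : Cfg) : Prop :=
  Fence A x r ω ∧ Pe (Set.Ioi b0) x (2 * r) r θ ω

/-- `F` has almost full mass -/
def Big (G : Measure ℝ≥0) (F : Set ℝ≥0) : Prop :=
  MeasurableSet F ∧ G.real Fᶜ ≤ (1 / 16) ^ 8

/-- lowering scheme -/
def Low (G : Measure ℝ≥0) (F : Set ℝ≥0) (ζ' ζ g : ℝ) : Prop :=
  Big G F ∧ 0 < ζ' ∧ ζ' ≤ ζ ∧ 0 < g ∧ g ≤ 1 ∧
    ∀ t ∈ F, g ≤ G.real {t' : ℝ≥0 | (t : ℝ) - ζ ≤ t' ∧ (t' : ℝ) ≤ t - ζ'}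

/-- a family of events that is stable when one edge of `E` is lowered by at most `ζ` -/
def Closed (ζ : ℝ) (E : Finset Ed) (S : ℕ → Set Cfg) : Prop :=
  (∀ i, S i ⊆ S (i + 1)) ∧
  ∀ (i : ℕ) (ω : Cfg) (e : Ed) (t : ℝ≥0), e ∈ E → ω ∈ S i → t ≤ ω e → (ω e : ℝ) ≤ t + ζ →
    Function.update ω e t ∈ S (i + 1)

/-- the event `E` only depends on the coordinates in `A` -/
def Det (A : Set Ed) (E : Set Cfg) : Prop :=
  ∀ ω ω' : Cfg, (∀ e ∈ A, ω e = ω' e) → ω ∈ E → ω' ∈ E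

/-- the upper expectation of `f` is at most `C` -/
def Dom (μ : Measure Cfg) (f : Cfg → ℝ) (C : ℝ) : Prop :=
  0 ≤ C ∧ ∃ h : Cfg → ℝ≥0∞, Measurable h ∧ (∀ᵐ ω ∂μ, ENNReal.ofReal (f ω) ≤ h ω) ∧
    ∫⁻ ω, h ω ∂μ ≤ ENNReal.ofReal C

open Classical in
/-- indicator -/
def ind (P : Prop) : ℝ := if P then 1 else 0

open Classical in
/-- number of elements of `s` satisfying `P` -/
def num {α : Type} (s : Finset α) (P : α → Prop) : ℕ := (s.filter P).card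

/-- pull a configuration back along a bijection of the vertices -/
def pull (φ : V ≃ V) (ω : Cfg) : Cfg := fun e => ω (e.map φ)

/-! ### Fences -/

def rect (x : V) (a b : ℕ) : Finset V :=
  Finset.Ico x.1 (x.1 + a) ×ˢ Finset.Ico x.2 (x.2 + b)

def Opn (M : ℝ≥0) (ω : Cfg) {u v : V} (p : lat.Walk u v) : Prop := ∀ e ∈ p.edges, ω e ≤ M

/-- open left-right crossing -/
def HC (M : ℝ≥0) (x : V) (a b : ℕ) (ω : Cfg) : Prop :=
  ∃ (u v : V) (p : lat.Walk u v), u.1 = x.1 ∧ v.1 = x.1 + a - 1 ∧ In (rect x a b) p ∧ Opn M ω p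

/-- open bottom-top crossing -/
def VC (M : ℝ≥0) (x : V) (a b : ℕ) (ω : Cfg) : Prop :=
  ∃ (u v : V) (p : lat.Walk u v), u.2 = x.2 ∧ v.2 = x.2 + b - 1 ∧ In (rect x a b) p ∧ Opn M ω p

/-- shell of scale `n` around `a` -/
def Sh (M : ℝ≥0) (a : V) (n : ℕ) (ω : Cfg) : Prop :=
  HC M (a.1 - 4 * n, a.2 + 2 * n) (8 * n) n ω ∧ HC M (a.1 - 4 * n, a.2 - 3 * n) (8 * n) n ω ∧
  VC M (a.1 - 3 * n, a.2 - 4 * n) n (8 * n) ω ∧ VC M (a.1 + 2 * n, a.2 - 4 * n) n (8 * n) ω ∧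
  VC M a n (8 * n) ω

/-- one attempt at building a fence along the ring of radius `ρ`, with scales up to `2 ^ k` -/
def Att (M : ℝ≥0) (x : V) (ρ k : ℕ) (ω : Cfg) : Prop :=
  (∀ t ∈ Finset.Ico (0 : ℤ) (8 * ρ), Sh M (x + bd ρ t) (2 ^ k) ω) ∧
  ∑ t ∈ Finset.Ico (0 : ℤ) (8 * ρ), ∑ j ∈ Finset.Icc 1 k,
    16 ^ (j + 1) * ind (¬ Sh M (x + bd ρ t) (2 ^ j) ω) ≤ 8 * (ρ : ℝ)

/-- strong rate for the failure of the good event -/
def Rate (G : Measure ℝ≥0) (A : ℝ) (b0 : ℝ≥0) : Prop :=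
  ∀ ε : ℝ, 0 < ε → ∃ r0 : ℕ, ∀ r, r0 ≤ r → ∀ x : V,
    (r : ℝ) ^ 2 * (mu G).real {ω | ¬ Good A b0 x r 0 ω} ≤ ε

/-- the fixed constants -/
def Env (G : Measure ℝ≥0) (A : ℝ) (b0 : ℝ≥0) (C1 : ℕ) : Prop :=
  0 < A ∧ 0 < b0 ∧ Big G (Set.Ioi b0) ∧ Rate G A b0 ∧ 2 * (A / b0 + 1) ≤ C1

/-! ### Rungs -/

def Rung (N D : ℕ) (M : ℝ) (F : Set ℝ≥0) (L J : ℕ) (b a b' a' x : V) (ω : Cfg) : Prop :=
  Btw N ω b x a ∧ (∃ p ∈ ball x D, Btw N ω b' p a') ∧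
    (∀ v, Btw N ω x v a → ¬ Btw N ω b' v a') ∧ Cheap x D M ω ∧ PF F x 0 L J ω

def Double (N D : ℕ) (M : ℝ) (F : Set ℝ≥0) (L L1 J : ℕ) (X : Finset V) (b a b' a' x : V)
    (ω : Cfg) : Prop :=
  Rung N D M F L J b a b' a' x ω ∧ ∃ x2 ∈ X, Rung N D M F L J b a b' a' x2 ω ∧
    Btw N ω x x2 a ∧ L ≤ len N ω x x2 ∧ len N ω x x2 ≤ L1

/-! ### Tripods -/

def Tri (c : V) (n : ℕ) (z : V) (ω : Cfg) : Prop :=
  ∃ w ∈ ring c n, ∃ y ∈ ring c n, ∃ y' ∈ ring c n,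
    ∃ (p : lat.Walk w z) (q : lat.Walk z y) (q' : lat.Walk z y'),
      IsGeo (ball c n) ω (p.append q) ∧ IsGeo (ball c n) ω (p.append q') ∧
      ∀ v ∈ q.support, v ∈ q'.support → v = z

/-- excess of `x` with respect to the pair `u, v` -/
def exc (N : ℕ) (ω : Cfg) (u x v : V) : ℝ := T N ω u x + T N ω x v - T N ω u v

/-- difference of the passage times to `y'` and to `y` -/
def gd (N : ℕ) (ω : Cfg) (y y' x : V) : ℝ := T N ω x y' - T N ω x y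

def Bad (N r : ℕ) (E q : ℝ) (ω : Cfg) : Prop :=
  ∃ w ∈ ring 0 N, ∃ y ∈ ring 0 N, ∃ y' ∈ ring 0 N, exc N ω w 0 y ≤ E ∧ exc N ω w 0 y' ≤ E ∧
    ∃ a ∈ ball 0 r, ∃ a' ∈ ball 0 r, gd N ω y y' a' + q ≤ gd N ω y y' a

/-- state of phase one after `i` lowerings -/
def St1 (N r R2 R1 L1 : ℕ) (E q E2 ζ' : ℝ) (i : ℕ) (ω : Cfg) : Prop :=
  ∃ w ∈ ring 0 N, ∃ y ∈ ring 0 N, ∃ y' ∈ ring 0 N, exc N ω w 0 y ≤ E ∧ exc N ω w 0 y' ≤ E ∧
    (∃ a ∈ ball 0 r, ∃ a' ∈ ball 0 r, gd N ω y y' a' + q ≤ gd N ω y y' a) ∧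
    ∀ c, (c ∈ ball 0 R2 ∨ c = y ∨ c = y') → ∀ p : lat.Walk w c, In (ball 0 N) p →
      (∀ k, R1 ≤ k → k ≤ R1 + L1 → (geo N ω 0 w).getVert k ∉ p.support) →
      T N ω w 0 + T N ω 0 c + i * ζ' ≤ cost ω p + E2

/-- state of phase two; `m` is the remaining margin and `E3` the remaining excess -/
def St2 (N r R2 R : ℕ) (q m E3 : ℝ) (ω : Cfg) : Prop :=
  ∃ w ∈ ring 0 N, ∃ y ∈ ring 0 N, ∃ y' ∈ ring 0 N, ∃ a' ∈ ball 0 r, ∃ v0 ∈ ball 0 R,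
    ∃ Z : Finset V, Z ⊆ ball 0 R ∧ (∀ u ∈ Z, Btw N ω w v0 u) ∧
      (∀ u ∈ Z, ∀ c ∈ ball 0 R2, T N ω w u + m ≤ T N ω w c) ∧
      (∀ c ∈ ball 0 R2, ∀ p : lat.Walk w c, p.IsPath → In (ball 0 N) p →
        (∀ u ∈ Z, u ∉ p.support) → T N ω w c + m < cost ω p) ∧
      Btw N ω w v0 y ∧ gd N ω y y' a' + q / 2 ≤ gd N ω y y' w ∧ exc N ω w a' y' ≤ E3

/-- final state -/
def St3 (N R2 R : ℕ) (ω : Cfg) : Prop :=
  ∃ w ∈ ring 0 N, ∃ y ∈ ring 0 N, ∃ y' ∈ ring 0 N, ∃ v0 ∈ ball 0 R, ∃ c ∈ ball 0 R2,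
    Btw N ω w v0 y ∧ Btw N ω w v0 c ∧ Btw N ω w c y' ∧ ¬ Btw N ω w c y

/-! ### Reference pairs -/

open Classical in
/-- overwrite all pairs inside `ball 0 r` by `M` -/
def ovw (r : ℕ) (M : ℝ≥0) (ω : Cfg) : Cfg :=
  fun e => if e ∈ (ball 0 r).sym2 then M else ω e

theorem ball_nonempty (c : V) (n : ℕ) : (ball c n).Nonempty :=
  ⟨c, by simp [ball]⟩

/-- oscillation over `ball 0 r` of the difference of passage times to `y'` and `y` -/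
def osc (N r : ℕ) (ω : Cfg) (y y' : V) : ℝ :=
  (ball 0 r).sup' (ball_nonempty 0 r) (gd N ω y y') -
    (ball 0 r).inf' (ball_nonempty 0 r) (gd N ω y y')

def cum (N r : ℕ) (ω : Cfg) (u : ℤ) : ℝ :=
  ∑ t ∈ Finset.Ico 0 u, osc N r ω (bd N t) (bd N (t + 1))

def cell (N r : ℕ) (K : ℝ) (ω : Cfg) (u : ℤ) : ℤ := ⌊cum N r ω u / K⌋

def Pre (N r : ℕ) (K E : ℝ) (ω : Cfg) (g : V × V) : Prop :=
  ∃ t ∈ Finset.Ico (0 : ℤ) (8 * N), ∃ t' ∈ Finset.Ico (0 : ℤ) (8 * N),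
  ∃ u ∈ Finset.Ico (0 : ℤ) (8 * N), ∃ v ∈ Finset.Ico (0 : ℤ) (8 * N),
    g = (bd N t, bd N t') ∧ (∀ k ∈ Finset.Ico 0 t, cell N r K ω k ≠ cell N r K ω t) ∧
    (∀ k ∈ Finset.Ico 0 t', cell N r K ω k ≠ cell N r K ω t') ∧
    cell N r K ω t = cell N r K ω u ∧ cell N r K ω t' = cell N r K ω v ∧
    exc N ω (bd N u) 0 (bd N v) ≤ E

def RR (N : ℕ) : Finset (V × V) := ring 0 N ×ˢ ring 0 N

/-- the pair `w, y` has the type of the reference pair `g` -/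
def Mem (N s : ℕ) (K : ℝ) (g : V × V) (w y : V) (ω : Cfg) : Prop :=
  ∀ u ∈ ball 0 (8 * s), ∀ u' ∈ ball 0 (8 * s),
    gd N ω w g.1 u ≤ gd N ω w g.1 u' + K ∧ gd N ω y g.2 u ≤ gd N ω y g.2 u' + K

def Cover (N s : ℕ) (K : ℝ) (Rf : V × V → Set Cfg) (ω : Cfg) : Prop :=
  ∀ w ∈ ring 0 N, ∀ y ∈ ring 0 N, ∀ x ∈ ball 0 s, Btw N ω w x y →
    ∃ g ∈ RR N, ω ∈ Rf g ∧ Mem N s K g w y ω

/-- a system of at most `W` reference pairs that only depends on the outside of `ball 0 (8 s)` -/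
def RefSys (N s : ℕ) (W : ℝ) (Rf : V × V → Set Cfg) : Prop :=
  (∀ g, MeasurableSet (Rf g)) ∧ (∀ g, Det {e | e ∉ (ball 0 (8 * s)).sym2} (Rf g)) ∧
    ∀ ω, (num (RR N) fun g => ω ∈ Rf g : ℝ) ≤ W

/-! ### Near-minimal points -/

def NearMin (N s : ℕ) (g : V × V) (κ : ℝ) (z z' : V) (c : ℝ) (ω : Cfg) : Prop :=
  ∀ u ∈ ball 0 (8 * s), T N ω g.1 z + c + T N ω z' g.2 ≤ T N ω g.1 u + T N ω u g.2 + κ

def Nr (N s : ℕ) (F : Set ℝ≥0) (L0 : ℕ) (g : V × V) (κ : ℝ) (J : ℕ) (z : V) (ω : Cfg) : Prop :=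
  ∃ (z' : V) (q : lat.Walk z z'), q.IsPath ∧ q.length = L0 ∧ J ≤ cnt F ω q ∧
    NearMin N s g κ z z' (cost ω q) ω

def Opt (N s : ℕ) (g : V × V) (u : V) (ω : Cfg) : Prop :=
  u ∈ ball 0 (8 * s) ∧ NearMin N s g 0 u u 0 ω

/-- the side family used in the moment bounds (lowering by at most one) -/
def Fam (A : ℝ) (b0 : ℝ≥0) (N s : ℕ) (F : Set ℝ≥0) (J : ℕ) (g : V × V) (κ : ℝ) (S0 : Set Cfg)
    (zs : List V) (θ : ℕ) : Set Cfg :=
  {ω | ω ∈ S0 ∧ Good A b0 0 (4 * s) θ ω ∧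
    ∀ z ∈ zs, Nr N s F (2 * J) g (κ + 2 * θ) (J - θ) z ω}

/-! ### Straight blocks and tubes -/

def StrAt (p : ℕ → V) (H d i0 : ℕ) : Prop :=
  ∀ k ≤ H, |(H : ℤ) * ((p (i0 + k * d)).1 - (p i0).1) - k * ((p (i0 + H * d)).1 - (p i0).1)| ≤ H * d ∧
    |(H : ℤ) * ((p (i0 + k * d)).2 - (p i0).2) - k * ((p (i0 + H * d)).2 - (p i0).2)| ≤ H * d

/-- linear form defining the tubes; `o` is the orientation and `j / H` the slope -/
def lf (H : ℕ) (o : Bool) (j : ℤ) (v : V) : ℤ :=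
  if o then H * v.2 - j * v.1 else H * v.1 - j * v.2

abbrev Tix : Type := V × Bool × ℤ × ℤ

def tube (H d : ℕ) (τ : Tix) : Finset V :=
  (ball τ.1 (2 * (H * d))).filter fun v =>
    |lf H τ.2.1 τ.2.2.1 (v - τ.1) - τ.2.2.2 * (H * d)| ≤ 6 * (H * d)

/-- centres: multiples of `l` in `ball 0 (s + l)` -/
def cen (s l : ℕ) : Finset V := (ball 0 (s + l)).filter fun c => (l : ℤ) ∣ c.1 ∧ (l : ℤ) ∣ c.2

def ctr (l : ℕ) (x : V) : V := (l * (x.1 / l), l * (x.2 / l))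

def tubes (s H d : ℕ) : Finset Tix :=
  cen s (H * d) ×ˢ (Finset.univ ×ˢ (Finset.Icc (-(H : ℤ)) H ×ˢ Finset.Icc (-(4 * H : ℤ)) (4 * H)))

/-- edges whose lower left endpoint is in `S` -/
def edg (S : Finset V) : Finset Ed :=
  S.image (fun v => s(v, v + (1, 0))) ∪ S.image (fun v => s(v, v + (0, 1)))

/-- the reference pair `g` has a near-minimal path with many `F` edges inside `S` -/
def Atb (N s : ℕ) (F : Set ℝ≥0) (l : ℕ) (g : V × V) (κ : ℝ) (S : Finset V) (ω : Cfg) : Prop :=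
  ∃ (z z' : V) (q : lat.Walk z z'), q.IsPath ∧ In S q ∧ l ≤ 2 * cnt F ω q ∧
    NearMin N s g κ z z' (cost ω q) ω

/-- local good event at scale `l` around the centre `c` -/
def LG (A : ℝ) (b0 : ℝ≥0) (F : Set ℝ≥0) (l lam : ℕ) (c : V) (ω : Cfg) : Prop :=
  Good A b0 c (2 * l) 0 ω ∧ Pe F c (2 * l) l 0 ω ∧ ∀ x ∈ ball c (2 * l), Good A b0 x lam 0 ω

/-- the target event -/
def OnG (N : ℕ) (x : V) (ω : Cfg) : Prop := ∃ w ∈ ring 0 N, ∃ y ∈ ring 0 N, Btw N ω w x y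

/-- rung-bad points -/
def RB (N s D : ℕ) (K : ℝ) (Rf : V × V → Set Cfg) (x : V) (ω : Cfg) : Prop :=
  ∃ g ∈ RR N, ω ∈ Rf g ∧ ∃ w ∈ ring 0 N, ∃ y ∈ ring 0 N, ∃ w' ∈ ring 0 N, ∃ y' ∈ ring 0 N,
    Mem N s K g w y ω ∧ Mem N s K g w' y' ω ∧ Btw N ω w x y ∧ ¬ Btw N ω w' x y' ∧
    ∃ x' ∈ ball 0 s, x' ∈ ball x D ∧ Btw N ω w' x' y'

/-- admissible pairs of the geodesic from `w` to `y` through `x` -/
def Adm (N s C1 : ℕ) (F : Set ℝ≥0) (J : ℕ) (g : V × V) (κ : ℝ) (w y b a : V) (ω : Cfg) : Prop :=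
  b ∈ ball 0 (3 * s) ∧ a ∈ ball 0 (3 * s) ∧ 2 * s < nrm b ∧ 2 * s < nrm a ∧
    Nr N s F (2 * J) g κ J b ω ∧ Nr N s F (2 * J) g κ J a ω ∧ len N ω b a ≤ 4 * C1 * s ∧
    Btw N ω w b a ∧ Btw N ω w a y ∧ ∀ v ∈ ball 0 (2 * s), Btw N ω w v y → Btw N ω b v a

/-- the block of scale `H d` of the geodesic from `b` to `a` that contains `x` is straight -/
def StrX (N H d : ℕ) (b a x : V) (ω : Cfg) : Prop :=
  StrAt (geo N ω b a).getVert H d (H * d * (len N ω b x / (H * d)))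

/-- points all of whose admissible pairs are not straight -/
def NS (N s C1 : ℕ) (F : Set ℝ≥0) (J : ℕ) (K : ℝ) (Rf : V × V → Set Cfg) (H d : ℕ) (x : V)
    (ω : Cfg) : Prop :=
  ∃ g ∈ RR N, ω ∈ Rf g ∧ ∃ w ∈ ring 0 N, ∃ y ∈ ring 0 N, Mem N s K g w y ω ∧ Btw N ω w x y ∧
    ∀ b a, Adm N s C1 F J g (2 * K) w y b a ω → ¬ StrX N H d b a x ω

/-- global good event -/
def GG (A : ℝ) (b0 : ℝ≥0) (N s : ℕ) (F : Set ℝ≥0) (K : ℝ) (Rf : V × V → Set Cfg) (ω : Cfg) : Prop :=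
  Cover N s K Rf ω ∧ Good A b0 0 (4 * s) 0 ω ∧ Pe F 0 (3 * s) s 0 ω

/-- bigeodesic through `x` in the canonical space -/
def BigAt (x : V) (ω : Cfg) : Prop :=
  ∃ v : ℤ → V, IsBigeodesic (fun e => ω e.1) v ∧ v 0 = x

end

end Vale.Agent.P158
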