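import Vale.Agent.P158.Shell
import Vale.Agent.P158.DomC

/-! A successful attempt gives a fence. -/

open scoped NNReal ENNReal
open MeasureTheory

namespace Vale.Agent.P158

/-- scales that vary slowly along the ring. Hint: `K t` is the maximum of `1` and of
`j + 1 - (t - t').natAbs` over the bad pairs `(t', j)`; and
`4 ^ K t ≤ 4 + ∑ over bad (t', j) with (t - t').natAbs ≤ j of 4 ^ (j + 1)`, `(2 j + 1) 4 ^ (j+1) ≤ 16 ^ (j+1)`. -/
theorem exists_scales (P : ℕ) {k : ℕ} (hk : 1 ≤ k) (good : ℤ → ℕ → Prop)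
    (h : ∀ t ∈ Finset.Ico (0 : ℤ) P, good t k) : ∃ K : ℤ → ℕ,
      (∀ t ∈ Finset.Ico (0 : ℤ) P, 1 ≤ K t ∧ K t ≤ k ∧ good t (K t)) ∧
      (∀ t, K (t + 1) ≤ K t + 1 ∧ K t ≤ K (t + 1) + 1) ∧
      ∑ t ∈ Finset.Ico (0 : ℤ) P, (4 : ℝ) ^ K t ≤
        4 * P + ∑ t ∈ Finset.Ico (0 : ℤ) P, ∑ j ∈ Finset.Icc 1 k, 16 ^ (j + 1) * ind (¬ good t j) := by
  sorry

/-- Hint: merge the shells of `x + bd ρ t`, `t = 0, 1, …` one after the other (`exists_merge`);
consecutive shells meet because the radial walk of the one of smaller scale is blocked by the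
other one. A crossing walk visits the ring of radius `ρ` (`first_exit`, `bd_surj`). -/
theorem fence_of_att {M : ℝ≥0} {x : V} {ρ k r : ℕ} {ω : Cfg} (hk : 1 ≤ k)
    (h1 : r + 8 * 2 ^ k < ρ) (h2 : ρ + 8 * 2 ^ k < 2 * r) (h : Att M x ρ k ω) :
    Fence (16000 * (M + 1)) x r ω := by
  sorry

end Vale.Agent.P158
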