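import Vale.Agent.P158.Defs

/-! Consequences of the absence of atoms. -/

open scoped NNReal ENNReal
open MeasureTheory

namespace Vale.Agent.P158

variable {G : Measure ℝ≥0} [IsProbabilityMeasure G]

/-- Hint: `F n = {t | 1/(n+1) ≤ G.real [t - ζ, t - ζ/(n+1)]}` is measurable
(`measurable_measure_prodMk_left`) and increases to `{t | 0 < G [t - ζ, t)}`, whose complement is
null: cut the half line into intervals `I` of length `ζ`; if `t ∈ I` has `G [t - ζ, t) = 0` then
`I ∩ Iio t` is null, so `I ∩ Iio (sSup of such t)` is null (countable union) and points are null. -/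
theorem exists_low [NullSingletonClass G] {ζ : ℝ} (hζ : 0 < ζ) : ∃ F ζ' g, Low G F ζ' ζ g := by
  sorry

theorem exists_tail (G : Measure ℝ≥0) [IsProbabilityMeasure G] {p : ℝ} (hp : 0 < p) :
    ∃ M : ℝ≥0, G.real {t | (M : ℝ) < t} ≤ p := by
  sorry

/-- Hint: `M = sInf {t | G.real (Ioi t) ≤ min p (1/2)}` -/
theorem exists_quantile [NullSingletonClass G] {p : ℝ} (hp : 0 < p) :
    ∃ M : ℝ≥0, G.real {t | (M : ℝ) < t} ≤ p ∧
      ∀ ζ : ℝ, 0 < ζ → 0 < G.real {t | (M : ℝ) - ζ < t ∧ t ≤ M} := by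
  sorry

theorem exists_ab [NullSingletonClass G] : ∃ a b b' : ℝ≥0, a < b ∧ b < b' ∧ 0 < G.real (Set.Iic a) ∧
    Big G (Set.Ioc b b') ∧ Big G (Set.Ioi b) := by
  sorry

end Vale.Agent.P158
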