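import Vale.Agent.P158.GeoG

/-! Changing the weight of one edge. -/

open scoped NNReal ENNReal
open MeasureTheory

namespace Vale.Agent.P158

variable {N : ℕ} {ω : Cfg} {u v w x z : V} {e : Ed} {t : ℝ≥0}

theorem cost_update_of_not_mem (p : lat.Walk u v) (t : ℝ≥0) (he : e ∉ p.edges) :
    cost (Function.update ω e t) p = cost ω p := by
  sorry

theorem cost_update_le (p : lat.Walk u v) (ht : t ≤ ω e) :
    cost (Function.update ω e t) p ≤ cost ω p := by
  sorry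

theorem cost_update_le_of_mem (p : lat.Walk u v) (ht : t ≤ ω e) (he : e ∈ p.edges) :
    cost (Function.update ω e t) p ≤ cost ω p - (ω e - t) := by
  sorry

theorem cost_update_ge {p : lat.Walk u v} (hp : p.IsPath) (ht : t ≤ ω e) :
    cost ω p - (ω e - t) ≤ cost (Function.update ω e t) p := by
  sorry

theorem T_mono {ω ω' : Cfg} (h : ∀ e, ω e ≤ ω' e) (hu : u ∈ ball 0 N) (hv : v ∈ ball 0 N) :
    T N ω u v ≤ T N ω' u v := by
  sorry

theorem T_update_le (ht : t ≤ ω e) (hu : u ∈ ball 0 N) (hv : v ∈ ball 0 N) :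
    T N (Function.update ω e t) u v ≤ T N ω u v := by
  sorry

theorem T_update_ge (ht : t ≤ ω e) (hu : u ∈ ball 0 N) (hv : v ∈ ball 0 N) :
    T N ω u v - (ω e - t) ≤ T N (Function.update ω e t) u v := by
  sorry

theorem mem_geo_of_T_lt (hu : u ∈ ball 0 N) (hv : v ∈ ball 0 N)
    (h : T N (Function.update ω e t) u v < T N ω u v) :
    e ∈ (geo N (Function.update ω e t) u v).edges := by
  sorry

theorem T_update_of_mem (ht : t ≤ ω e) (hu : u ∈ ball 0 N) (hv : v ∈ ball 0 N)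
    (he : e ∈ (geo N ω u v).edges) :
    T N (Function.update ω e t) u v = T N ω u v - (ω e - t) := by
  sorry

theorem geo_update_of_mem (hg : Gen (Function.update ω e t)) (ht : t ≤ ω e) (hu : u ∈ ball 0 N)
    (hv : v ∈ ball 0 N) (he : e ∈ (geo N ω u v).edges) :
    geo N (Function.update ω e t) u v = geo N ω u v := by
  sorry

theorem geo_update_of_le (hg : Gen (Function.update ω e t)) (ht : t ≤ ω e) (hu : u ∈ ball 0 N)
    (hv : v ∈ ball 0 N) (h : T N ω u v ≤ T N (Function.update ω e t) u v) :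
    geo N (Function.update ω e t) u v = geo N ω u v := by
  sorry

/-- betweenness persists when the passage time does not drop -/
theorem Btw.update (ht : t ≤ ω e) (hu : u ∈ ball 0 N) (hv : v ∈ ball 0 N) (hb : Btw N ω u x v)
    (h : T N ω u v ≤ T N (Function.update ω e t) u v) : Btw N (Function.update ω e t) u x v := by
  sorry

theorem T_close {ω ω' : Cfg} (E : Finset Ed) {ζ : ℝ} (hζ : 0 ≤ ζ)
    (h1 : ∀ e ∈ E, (ω e : ℝ) ≤ ω' e + ζ) (h2 : ∀ e, e ∉ E → ω e = ω' e) (hu : u ∈ ball 0 N)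
    (hv : v ∈ ball 0 N) : T N ω u v ≤ T N ω' u v + ζ * E.card := by
  sorry

theorem T_congr {ω ω' : Cfg} (h : ∀ e ∈ lat.edgeSet, ω e = ω' e) (hu : u ∈ ball 0 N)
    (hv : v ∈ ball 0 N) : T N ω u v = T N ω' u v := by
  sorry

theorem cnt_add_compl (F : Set ℝ≥0) (ω : Cfg) (p : lat.Walk u v) :
    cnt F ω p + cnt Fᶜ ω p = p.length := by
  sorry

theorem cnt_le_length (F : Set ℝ≥0) (ω : Cfg) (p : lat.Walk u v) : cnt F ω p ≤ p.length := by
  have := cnt_add_compl F ω p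
  omega

theorem cnt_append (F : Set ℝ≥0) (ω : Cfg) (p : lat.Walk u v) (q : lat.Walk v w) :
    cnt F ω (p.append q) = cnt F ω p + cnt F ω q := by
  sorry

theorem cnt_congr (F : Set ℝ≥0) {ω ω' : Cfg} (p : lat.Walk u v) (h : ∀ e ∈ p.edges, ω e = ω' e) :
    cnt F ω p = cnt F ω' p := by
  sorry

theorem cnt_update (F : Set ℝ≥0) {p : lat.Walk u v} (hp : p.IsPath) (e : Ed) (t : ℝ≥0) :
    cnt F ω p ≤ cnt F (Function.update ω e t) p + 1 ∧
      cnt F (Function.update ω e t) p ≤ cnt F ω p + 1 := by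
  sorry

theorem exists_mem_of_cnt_pos {F : Set ℝ≥0} {p : lat.Walk u v} (h : 0 < cnt F ω p) :
    ∃ e ∈ p.edges, ω e ∈ F := by
  sorry

theorem mul_cnt_le_cost (b : ℝ≥0) (ω : Cfg) (p : lat.Walk u v) :
    (b : ℝ) * cnt (Set.Ioi b) ω p ≤ cost ω p := by
  sorry

theorem Pe.mono {F : Set ℝ≥0} {x x' : V} {r r' n n' θ θ' : ℕ} (h : Pe F x r n θ ω)
    (hb : ball x' r' ⊆ ball x r) (hn : n ≤ n') (hθ : θ ≤ θ') : Pe F x' r' n' θ' ω := by
  sorry

theorem Pe.update {F : Set ℝ≥0} {r n θ : ℕ} (h : Pe F x r n θ ω) (e : Ed) (t : ℝ≥0) :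
    Pe F x r n (θ + 1) (Function.update ω e t) := by
  sorry

theorem Pe.pf {F : Set ℝ≥0} {r n L k : ℕ} (h : Pe F x r n 0 ω) (hn : n ≤ L) (hk : 2 * k ≤ L) :
    PF F x r L k ω := by
  sorry

theorem Pe.cost_ge {b : ℝ≥0} {r n θ : ℕ} (h : Pe (Set.Ioi b) x r n θ ω) (hu : u ∈ ball x r)
    {q : lat.Walk u v} (hq : q.IsPath) (hn : n ≤ q.length) :
    (b : ℝ) * ((q.length : ℝ) / 2 - θ) ≤ cost ω q := by
  sorry

theorem PF.update {F : Set ℝ≥0} {r L k : ℕ} (h : PF F x r L k ω) (e : Ed) (t : ℝ≥0) :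
    PF F x r L (k - 1) (Function.update ω e t) := by
  sorry

theorem PF.update_far {F : Set ℝ≥0} {r L k : ℕ} (h : PF F x r L k ω) (t : ℝ≥0)
    (he : e ∉ (ball x (r + L)).sym2) : PF F x r L k (Function.update ω e t) := by
  sorry

theorem PF.mono {F : Set ℝ≥0} {r L k k' : ℕ} (h : PF F x r L k ω) (hk : k' ≤ k) :
    PF F x r L k' ω := fun u hu v q hq hl => hk.trans (h u hu v q hq hl)

theorem Cheap.update {D : ℕ} {M : ℝ} (h : Cheap x D M ω) (ht : t ≤ ω e) :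
    Cheap x D M (Function.update ω e t) := by
  sorry

theorem Cheap.mono {x' : V} {D D' : ℕ} {M : ℝ} (h : Cheap x D M ω) (hb : ball x' D' ⊆ ball x D) :
    Cheap x' D' M ω := fun u hu v hv => h u (hb hu) v (hb hv)

theorem Cheap.T_le {D : ℕ} {M : ℝ} (h : Cheap x D M ω) (hb : ball x D ⊆ ball 0 N)
    (hu : u ∈ ball x D) (hv : v ∈ ball x D) : T N ω u v ≤ 4 * D * M := by
  sorry

theorem Fence.update {A : ℝ} {r : ℕ} (h : Fence A x r ω) (ht : t ≤ ω e) :
    Fence A x r (Function.update ω e t) := by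
  sorry

theorem Good.update {A : ℝ} {b0 : ℝ≥0} {r θ : ℕ} (h : Good A b0 x r θ ω) (ht : t ≤ ω e) :
    Good A b0 x r (θ + 1) (Function.update ω e t) := ⟨h.1.update ht, h.2.update e t⟩

theorem Good.mono {A : ℝ} {b0 : ℝ≥0} {r θ θ' : ℕ} (h : Good A b0 x r θ ω) (hθ : θ ≤ θ') :
    Good A b0 x r θ' ω := ⟨h.1, h.2.mono subset_rfl le_rfl hθ⟩

end Vale.Agent.P158
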