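import Vale.Agent.P158.Ind
import Vale.Agent.P158.DomC
import Vale.Agent.P158.Upd

/-! The Peierls estimate. -/

open scoped NNReal ENNReal
open MeasureTheory

namespace Vale.Agent.P158

variable {G : Measure ℝ≥0} [IsProbabilityMeasure G]

/-- the self-avoiding paths of length `n` from `u` have at most `4 ^ n` edge lists -/
theorem exists_finset_paths (u : V) (n : ℕ) : ∃ S : Finset (List Ed), S.card ≤ 4 ^ n ∧
    (∀ l ∈ S, l.Nodup ∧ l.length = n) ∧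
    ∀ (v : V) (q : lat.Walk u v), q.IsPath → q.length = n → q.edges ∈ S := by
  sorry

/-- Hint: union over the at most `2 ^ n` subsets `Y` of `l.toFinset` with `n < 8 * Y.card` of
`{∀ e ∈ Y, ω e ∈ Fᶜ}`, of probability at most `((1/16)^8)^Y.card ≤ (1/16)^n`. -/
theorem real_many_bad {F : Set ℝ≥0} (hF : Big G F) (l : List Ed) (hl : l.Nodup) :
    (mu G).real {ω | l.length < 8 * num l.toFinset fun e => ω e ∈ Fᶜ} ≤ (1 / 8) ^ l.length := by
  sorry

theorem real_not_pe {F : Set ℝ≥0} (hF : Big G F) (x : V) (r n0 : ℕ) :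
    (mu G).real {ω | ¬ Pe F x r n0 0 ω} ≤ (2 * r + 1) ^ 2 * (2 * (1 / 2) ^ n0) := by
  sorry

theorem real_not_pf {F : Set ℝ≥0} (hF : Big G F) (x : V) (r : ℕ) {L k : ℕ} (hk : 2 * k ≤ L) :
    (mu G).real {ω | ¬ PF F x r L k ω} ≤ (2 * r + 1) ^ 2 * (2 * (1 / 2) ^ L) := by
  sorry

/-- strong rate -/
theorem pe_rate {F : Set ℝ≥0} (hF : Big G F) (c : ℕ) {ε : ℝ} (hε : 0 < ε) :
    ∃ r0 : ℕ, ∀ r, r0 ≤ r → ∀ x : V,
      (r : ℝ) ^ 2 * (mu G).real {ω | ¬ Pe F x (c * r) r 0 ω} ≤ ε := by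
  sorry

end Vale.Agent.P158
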