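import Vale.Agent.P158.FenceD
import Vale.Agent.P158.Cross
import Vale.Agent.P158.Peierls
import Vale.Agent.P158.Law

/-! Fences exist with overwhelming probability. -/

open scoped NNReal ENNReal
open MeasureTheory

namespace Vale.Agent.P158

variable {G : Measure ℝ≥0} [IsProbabilityMeasure G]

/-- Hint: union bound for the first part, `Dom.markov` for the second; `j + 1 ≤ 2 ^ j`. -/
theorem att_prob {M : ℝ≥0} (hM : G.real {t | (M : ℝ) < t} ≤ 1 / 11200) (x : V) {ρ k : ℕ}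
    (hρ : 1 ≤ ρ) (h : 32 * ρ ≤ 64 ^ 2 ^ k) : (mu G).real {ω | ¬ Att M x ρ k ω} ≤ 1 / 2 := by
  sorry

theorem det_att (M : ℝ≥0) (x : V) {ρ : ℕ} (hρ : 1 ≤ ρ) (k : ℕ) :
    Det {e | ∀ v ∈ e, ρ ≤ nrm (v - x) + 8 * 2 ^ k ∧ nrm (v - x) ≤ ρ + 8 * 2 ^ k}
      {ω | Att M x ρ k ω} := by
  sorry

/-- Hint: `k = Nat.log 4 r`, `w = 2 ^ k` (so `w ^ 2 ≤ r < 4 w ^ 2`), `t = w / 20` attempts at the
radii `r + 17 w (i + 1)`, `i < t`; `real_iInter_det` gives failure at most `(1/2) ^ t`, and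
`16 w ^ 4 (1/2) ^ (w / 20)` tends to zero. -/
theorem fence_rate (G : Measure ℝ≥0) [IsProbabilityMeasure G] : ∃ A : ℝ, 0 < A ∧
    ∀ ε : ℝ, 0 < ε → ∃ r0 : ℕ, ∀ r, r0 ≤ r → ∀ x : V,
      (r : ℝ) ^ 2 * (mu G).real {ω | ¬ Fence A x r ω} ≤ ε := by
  sorry

theorem exists_env {b0 : ℝ≥0} (hb : 0 < b0) (hB : Big G (Set.Ioi b0)) :
    ∃ (A : ℝ) (C1 : ℕ), Env G A b0 C1 := by
  sorry

theorem Env.good_small {A : ℝ} {b0 : ℝ≥0} {C1 : ℕ} (h : Env G A b0 C1) {ε : ℝ} (hε : 0 < ε) :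
    ∃ r0 : ℕ, ∀ r, r0 ≤ r → ∀ x : V, (mu G).real {ω | ¬ Good A b0 x r 0 ω} ≤ ε := by
  sorry

/-- the local good event is likely at all large scales -/
theorem Env.lg_small {A : ℝ} {b0 : ℝ≥0} {C1 : ℕ} (h : Env G A b0 C1) {F : Set ℝ≥0} (hF : Big G F)
    {Z : ℕ} (hZ : 1 ≤ Z) {ε : ℝ} (hε : 0 < ε) : ∃ l0 : ℕ, ∀ lam, l0 ≤ lam → ∀ c : V,
      (mu G).real {ω | ¬ LG A b0 F (Z * lam) lam c ω} ≤ ε := by
  sorry

end Vale.Agent.P158
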