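import Vale.Agent.P158.Upd
import Vale.Agent.P158.DomC

/-! Geodesics spend a linear number of steps in a good ball. -/

open scoped NNReal ENNReal
open MeasureTheory

namespace Vale.Agent.P158

variable {A : ℝ} {b0 : ℝ≥0} {C1 N r θ : ℕ} {ω : Cfg} {x u v : V}

/-- Hint: by symmetry `b` is before `a`. The walks `geo b u` and `geo a v` meet the fence at `p` and
`p'`; `len b a ≤ len p p'`, `T p p' ≤ A r` by `exists_sub_walk`, and `Pe.cost_ge` for `geo p p'`. -/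
theorem gc_len (hb0 : 0 < b0) (hA : 0 < A) (hC : 2 * (A / b0 + 1) ≤ C1) (hg : Gen ω)
    (hG : Good A b0 x r θ ω) (hθ : θ ≤ r) (hx : ball x (2 * r) ⊆ ball 0 N) (hu : u ∈ ball 0 N)
    (hv : v ∈ ball 0 N) (hu' : 2 * r ≤ nrm (u - x)) (hv' : 2 * r ≤ nrm (v - x)) {b a : V}
    (hb : b ∈ ball x r) (ha : a ∈ ball x r) (h1 : Btw N ω u b v) (h2 : Btw N ω u a v) :
    len N ω b a ≤ C1 * r := by
  sorry

theorem gc_num (hb0 : 0 < b0) (hA : 0 < A) (hC : 2 * (A / b0 + 1) ≤ C1) (hg : Gen ω)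
    (hG : Good A b0 x r θ ω) (hθ : θ ≤ r) (hx : ball x (2 * r) ⊆ ball 0 N) (hu : u ∈ ball 0 N)
    (hv : v ∈ ball 0 N) (hu' : 2 * r ≤ nrm (u - x)) (hv' : 2 * r ≤ nrm (v - x)) :
    num (ball x r) (fun z => Btw N ω u z v) ≤ C1 * r + 1 := by
  sorry

/-- the minimisers lie on one geodesic that starts on the ring of radius `8 s`. Hint: fix a
minimiser `z0`, let `u1` be the first vertex of `geo g.1 z0` in `ball 0 (8 s)`; it is a minimiser.
For a minimiser `z` the walks `geo g.1 z ++ geo z g.2` and `geo g.1 u1 ++ geo u1 g.2` have the same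
cost, so `z` lies on the second one (`Gen.mem_support`). -/
theorem opt_on_geo {s : ℕ} (hg : Gen ω) (hN : 8 * s < N) {g : V × V} (hgr : g ∈ RR N) :
    ∃ u1 ∈ ring 0 (8 * s), ∀ z, Opt N s g z ω → Btw N ω u1 z g.2 := by
  sorry

theorem exists_opt {s : ℕ} (N : ℕ) (ω : Cfg) (g : V × V) : ∃ z, Opt N s g z ω := by
  sorry

/-- every vertex of the optimal walk that lies in `ball 0 (8 s)` is a minimiser -/
theorem Opt.of_btw {s : ℕ} (hN : 8 * s ≤ N) {g : V × V} (hgr : g ∈ RR N) {z y : V}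
    (h : Opt N s g z ω) (hy : y ∈ ball 0 (8 * s)) (hb : Btw N ω g.1 y z ∨ Btw N ω z y g.2) :
    Opt N s g y ω := by
  sorry

/-- the number of minimisers in a good ball inside `ball 0 (8 s)` -/
theorem num_opt_le {s : ℕ} (hb0 : 0 < b0) (hA : 0 < A) (hC : 2 * (A / b0 + 1) ≤ C1) (hg : Gen ω)
    (hG : Good A b0 x r θ ω) (hθ : θ ≤ r) (hx : nrm x + 2 * r ≤ 8 * s) (hN : 8 * s < N)
    {g : V × V} (hgr : g ∈ RR N) : num (ball x r) (fun z => Opt N s g z ω) ≤ C1 * r + 1 := by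
  sorry

/-- points of a member geodesic are near-minimal -/
theorem Mem.nearMin {s : ℕ} (hN : 8 * s ≤ N) {K : ℝ} {g : V × V} (hgr : g ∈ RR N) {w y z z' : V}
    (hw : w ∈ ball 0 N) (hy : y ∈ ball 0 N) (h : Mem N s K g w y ω) (hz : z ∈ ball 0 (8 * s))
    (hz' : z' ∈ ball 0 (8 * s)) (h1 : Btw N ω w z z') (h2 : Btw N ω w z' y) :
    NearMin N s g (2 * K) z z' (T N ω z z') ω := by
  sorry

end Vale.Agent.P158
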