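import Vale.Agent.P158.Box

/-! Geodesics of the box. -/

open scoped NNReal ENNReal
open MeasureTheory

namespace Vale.Agent.P158

variable {N : ℕ} {ω : Cfg} {u v w x z : V}

theorem cost_nonneg (ω : Cfg) (p : lat.Walk u v) : 0 ≤ cost ω p := by
  sorry

@[simp] theorem cost_nil (ω : Cfg) : cost ω (SimpleGraph.Walk.nil : lat.Walk u u) = 0 := by
  simp [cost]

@[simp] theorem cost_cons (ω : Cfg) (h : lat.Adj u v) (p : lat.Walk v w) :
    cost ω (SimpleGraph.Walk.cons h p) = ω s(u, v) + cost ω p := by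
  simp [cost]

@[simp] theorem cost_append (ω : Cfg) (p : lat.Walk u v) (q : lat.Walk v w) :
    cost ω (p.append q) = cost ω p + cost ω q := by
  simp [cost]

@[simp] theorem cost_reverse (ω : Cfg) (p : lat.Walk u v) : cost ω p.reverse = cost ω p := by
  simp [cost, List.sum_reverse]

@[simp] theorem cost_copy (ω : Cfg) {u' v' : V} (p : lat.Walk u v) (hu : u = u') (hv : v = v') :
    cost ω (p.copy hu hv) = cost ω p := by
  simp [cost]

theorem cost_take_add_drop (ω : Cfg) (p : lat.Walk u v) (n : ℕ) :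
    cost ω (p.take n) + cost ω (p.drop n) = cost ω p := by
  rw [← cost_append, SimpleGraph.Walk.append_take_drop_eq]

theorem cost_bypass_le (ω : Cfg) (p : lat.Walk u v) : cost ω p.bypass ≤ cost ω p := by
  sorry

theorem cost_mono {ω ω' : Cfg} (p : lat.Walk u v) (h : ∀ e ∈ p.edges, ω e ≤ ω' e) :
    cost ω p ≤ cost ω' p := by
  sorry

theorem cost_congr {ω ω' : Cfg} (p : lat.Walk u v) (h : ∀ e ∈ p.edges, ω e = ω' e) :
    cost ω p = cost ω' p := by
  sorry

theorem cost_le_length {M : ℝ} (p : lat.Walk u v) (h : ∀ e ∈ p.edges, (ω e : ℝ) ≤ M) :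
    cost ω p ≤ M * p.length := by
  sorry

theorem le_cost_of_mem (p : lat.Walk u v) {e : Ed} (he : e ∈ p.edges) : (ω e : ℝ) ≤ cost ω p := by
  sorry

/-- two vertices of a walk are joined inside the walk at no larger cost -/
theorem exists_sub_walk (ω : Cfg) (p : lat.Walk u v) (hx : x ∈ p.support) (hz : z ∈ p.support) :
    ∃ q : lat.Walk x z, (∀ y ∈ q.support, y ∈ p.support) ∧ (∀ e ∈ q.edges, e ∈ p.edges) ∧
      cost ω q ≤ cost ω p := by
  sorry

theorem Cheap.exists_walk {c : V} {D : ℕ} {M : ℝ} (h : Cheap c D M ω) (hu : u ∈ ball c D)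
    (hv : v ∈ ball c D) : ∃ p : lat.Walk u v, In (ball c D) p ∧ cost ω p ≤ 4 * D * M := by
  sorry

theorem IsGeo.of_append_left {S : Finset V} {p : lat.Walk u v} {q : lat.Walk v w}
    (h : IsGeo S ω (p.append q)) : IsGeo S ω p := by
  sorry

theorem IsGeo.of_append_right {S : Finset V} {p : lat.Walk u v} {q : lat.Walk v w}
    (h : IsGeo S ω (p.append q)) : IsGeo S ω q := by
  sorry

theorem IsGeo.reverse {S : Finset V} {p : lat.Walk u v} (h : IsGeo S ω p) :
    IsGeo S ω p.reverse := by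
  sorry

theorem IsGeo.mono {S S' : Finset V} {p : lat.Walk u v} (h : IsGeo S ω p) (hS : S' ⊆ S)
    (hp : In S' p) : IsGeo S' ω p :=
  ⟨hp, fun q hq => h.2 q (hq.mono hS)⟩

/-- Hint: finitely many paths lie in the box (`support_injective`, nodup lists in a finset);
minimise the cost over them, and use `cost_bypass_le`. -/
theorem geo_spec (ω : Cfg) (hu : u ∈ ball 0 N) (hv : v ∈ ball 0 N) :
    (geo N ω u v).IsPath ∧ IsGeo (ball 0 N) ω (geo N ω u v) := by
  sorry

theorem geo_isPath (ω : Cfg) (hu : u ∈ ball 0 N) (hv : v ∈ ball 0 N) : (geo N ω u v).IsPath :=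
  (geo_spec ω hu hv).1

theorem geo_in (ω : Cfg) (hu : u ∈ ball 0 N) (hv : v ∈ ball 0 N) : In (ball 0 N) (geo N ω u v) :=
  (geo_spec ω hu hv).2.1

theorem T_le_cost (ω : Cfg) {p : lat.Walk u v} (hp : In (ball 0 N) p) : T N ω u v ≤ cost ω p :=
  (geo_spec ω hp.start hp.finish).2.2 p hp

theorem IsGeo.cost_eq {p : lat.Walk u v} (h : IsGeo (ball 0 N) ω p) : cost ω p = T N ω u v :=
  le_antisymm (h.2 _ (geo_in ω h.1.start h.1.finish)) (T_le_cost ω h.1)

theorem T_nonneg (N : ℕ) (ω : Cfg) (u v : V) : 0 ≤ T N ω u v := cost_nonneg _ _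

theorem T_self (ω : Cfg) (hu : u ∈ ball 0 N) : T N ω u u = 0 := by
  sorry

theorem T_symm (ω : Cfg) (hu : u ∈ ball 0 N) (hv : v ∈ ball 0 N) : T N ω u v = T N ω v u := by
  sorry

theorem T_tri (ω : Cfg) (hu : u ∈ ball 0 N) (hv : v ∈ ball 0 N) (hw : w ∈ ball 0 N) :
    T N ω u w ≤ T N ω u v + T N ω v w := by
  sorry

theorem T_le_adj (ω : Cfg) (hu : u ∈ ball 0 N) (hv : v ∈ ball 0 N) (h : lat.Adj u v) :
    T N ω u v ≤ ω s(u, v) := by
  sorry

theorem cost_geo_take (ω : Cfg) (hu : u ∈ ball 0 N) (hv : v ∈ ball 0 N) (i : ℕ) :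
    cost ω ((geo N ω u v).take i) = T N ω u ((geo N ω u v).getVert i) := by
  sorry

theorem cost_geo_drop (ω : Cfg) (hu : u ∈ ball 0 N) (hv : v ∈ ball 0 N) (i : ℕ) :
    cost ω ((geo N ω u v).drop i) = T N ω ((geo N ω u v).getVert i) v := by
  sorry

theorem btw_of_mem (ω : Cfg) (hu : u ∈ ball 0 N) (hv : v ∈ ball 0 N)
    (hz : z ∈ (geo N ω u v).support) : Btw N ω u z v := by
  sorry

theorem btw_getVert (ω : Cfg) (hu : u ∈ ball 0 N) (hv : v ∈ ball 0 N) (i : ℕ) :
    Btw N ω u ((geo N ω u v).getVert i) v :=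
  btw_of_mem ω hu hv (SimpleGraph.Walk.getVert_mem_support _ _)

theorem btw_getVert_getVert (ω : Cfg) (hu : u ∈ ball 0 N) (hv : v ∈ ball 0 N) {i j : ℕ}
    (h : i ≤ j) : Btw N ω u ((geo N ω u v).getVert i) ((geo N ω u v).getVert j) := by
  sorry

theorem IsGeo.btw {p : lat.Walk u v} (h : IsGeo (ball 0 N) ω p) (hz : z ∈ p.support) :
    Btw N ω u z v := by
  sorry

theorem Btw.isGeo (hu : u ∈ ball 0 N) (hv : v ∈ ball 0 N) (h : Btw N ω u x v) :
    IsGeo (ball 0 N) ω ((geo N ω u x).append (geo N ω x v)) := by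
  sorry

theorem Btw.symm (hu : u ∈ ball 0 N) (hv : v ∈ ball 0 N) (h : Btw N ω u x v) : Btw N ω v x u := by
  sorry

theorem btw_left (ω : Cfg) (hu : u ∈ ball 0 N) (v : V) : Btw N ω u u v := by
  sorry

theorem btw_right (ω : Cfg) (u : V) (hv : v ∈ ball 0 N) : Btw N ω u v v := by
  sorry

theorem Btw.trans_left (hu : u ∈ ball 0 N) (hv : v ∈ ball 0 N) (h : Btw N ω u x v)
    (h' : Btw N ω u z x) : Btw N ω u z v ∧ Btw N ω z x v := by
  sorry

theorem Btw.trans_right (hu : u ∈ ball 0 N) (hv : v ∈ ball 0 N) (h : Btw N ω u x v)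
    (h' : Btw N ω x z v) : Btw N ω u z v ∧ Btw N ω u x z := by
  sorry

/-- `gd` increases along geodesics to `y` -/
theorem gd_le_of_btw {y y' : V} (hu : u ∈ ball 0 N) (hy' : y' ∈ ball 0 N) (h : Btw N ω u x y) :
    gd N ω y y' u ≤ gd N ω y y' x := by
  sorry

/-- `gd` decreases along geodesics to `y'` -/
theorem gd_ge_of_btw {y y' : V} (hu : u ∈ ball 0 N) (hy : y ∈ ball 0 N) (h : Btw N ω u x y') :
    gd N ω y y' x ≤ gd N ω y y' u := by
  sorry

theorem exc_nonneg (ω : Cfg) (hu : u ∈ ball 0 N) (hx : x ∈ ball 0 N) (hv : v ∈ ball 0 N) :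
    0 ≤ exc N ω u x v := by
  have := T_tri ω hu hx hv
  unfold exc; linarith

end Vale.Agent.P158
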