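import Vale.Agent.P158.Geo

/-! Geodesics of generic configurations: uniqueness and order. -/

open scoped NNReal ENNReal
open MeasureTheory

namespace Vale.Agent.P158

variable {N : ℕ} {ω : Cfg} {u v w x z : V}

theorem Gen.pos (h : Gen ω) (e : Ed) : 0 < (ω e : ℝ) := by
  sorry

/-- Hint: `cost ω p = ∑ e ∈ s, count e * ω e` for a finset `s` containing the edges; use
`linearIndependent_iff'`. -/
theorem Gen.count_eq (h : Gen ω) {u' v' : V} {p : lat.Walk u v} {q : lat.Walk u' v'}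
    (hc : cost ω p = cost ω q) (e : Ed) : p.edges.count e = q.edges.count e := by
  sorry

theorem Gen.mem_support (h : Gen ω) {u' v' : V} {p : lat.Walk u v} {q : lat.Walk u' v'}
    (hc : cost ω p = cost ω q) (hp : 0 < p.length) (hz : z ∈ p.support) : z ∈ q.support := by
  sorry

/-- two paths with the same endpoints and the same edges coincide (induction on `p`) -/
theorem path_eq_of_edges {p q : lat.Walk u v} (hp : p.IsPath) (hq : q.IsPath)
    (h : ∀ e, e ∈ p.edges ↔ e ∈ q.edges) : p = q := by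
  sorry

/-- Hint: the counts of edges agree with those of the path `geo`, so the lengths agree and `p` is a
trail; `p.bypass` has the same cost, hence the same length, so `p.bypass = p`. -/
theorem Gen.eq_geo (h : Gen ω) {p : lat.Walk u v} (hp : In (ball 0 N) p)
    (hc : cost ω p ≤ T N ω u v) : p = geo N ω u v := by
  sorry

theorem Gen.geo_append (h : Gen ω) (hu : u ∈ ball 0 N) (hv : v ∈ ball 0 N) (hx : Btw N ω u x v) :
    geo N ω u v = (geo N ω u x).append (geo N ω x v) := by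
  sorry

theorem Gen.mem_geo (h : Gen ω) (hu : u ∈ ball 0 N) (hv : v ∈ ball 0 N) :
    z ∈ (geo N ω u v).support ↔ Btw N ω u z v := by
  sorry

theorem Gen.geo_reverse (h : Gen ω) (hu : u ∈ ball 0 N) (hv : v ∈ ball 0 N) :
    geo N ω v u = (geo N ω u v).reverse := by
  sorry

theorem Gen.len_symm (h : Gen ω) (hu : u ∈ ball 0 N) (hv : v ∈ ball 0 N) :
    len N ω v u = len N ω u v := by
  sorry

theorem Gen.len_add (h : Gen ω) (hu : u ∈ ball 0 N) (hv : v ∈ ball 0 N) (hx : Btw N ω u x v) :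
    len N ω u v = len N ω u x + len N ω x v := by
  sorry

theorem nrm_le_len (N : ℕ) (ω : Cfg) (u v : V) : nrm (v - u) ≤ len N ω u v := nrm_le_length _

theorem len_self (ω : Cfg) (hu : u ∈ ball 0 N) : len N ω u u = 0 := by
  sorry

theorem Gen.nrm_le_of_btw (h : Gen ω) (hu : u ∈ ball 0 N) (hv : v ∈ ball 0 N)
    (hx : Btw N ω u x v) : nrm (x - u) ≤ len N ω u v := by
  sorry

theorem Gen.geo_take (h : Gen ω) (hu : u ∈ ball 0 N) (hv : v ∈ ball 0 N) (i : ℕ) :
    (geo N ω u v).take i = geo N ω u ((geo N ω u v).getVert i) := by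
  sorry

theorem Gen.geo_drop (h : Gen ω) (hu : u ∈ ball 0 N) (hv : v ∈ ball 0 N) (i : ℕ) :
    (geo N ω u v).drop i = geo N ω ((geo N ω u v).getVert i) v := by
  sorry

theorem Gen.len_getVert (h : Gen ω) (hu : u ∈ ball 0 N) (hv : v ∈ ball 0 N) {i : ℕ}
    (hi : i ≤ len N ω u v) : len N ω u ((geo N ω u v).getVert i) = i := by
  sorry

theorem Gen.len_getVert_getVert (h : Gen ω) (hu : u ∈ ball 0 N) (hv : v ∈ ball 0 N) {i j : ℕ}
    (hij : i ≤ j) (hj : j ≤ len N ω u v) :
    len N ω ((geo N ω u v).getVert i) ((geo N ω u v).getVert j) = j - i := by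
  sorry

theorem Gen.getVert_len (h : Gen ω) (hu : u ∈ ball 0 N) (hv : v ∈ ball 0 N) (hx : Btw N ω u x v) :
    (geo N ω u v).getVert (len N ω u x) = x := by
  sorry

theorem Gen.getVert_add (h : Gen ω) (hu : u ∈ ball 0 N) (hv : v ∈ ball 0 N) (hx : Btw N ω u x v)
    (i : ℕ) : (geo N ω u v).getVert (len N ω u x + i) = (geo N ω x v).getVert i := by
  sorry

theorem Gen.getVert_of_le (h : Gen ω) (hu : u ∈ ball 0 N) (hv : v ∈ ball 0 N)
    (hx : Btw N ω u x v) {i : ℕ} (hi : i ≤ len N ω u x) :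
    (geo N ω u v).getVert i = (geo N ω u x).getVert i := by
  sorry

theorem Gen.btw_iff_len (h : Gen ω) (hu : u ∈ ball 0 N) (hv : v ∈ ball 0 N) (hx : Btw N ω u x v)
    (hz : Btw N ω u z v) : Btw N ω u x z ↔ len N ω u x ≤ len N ω u z := by
  sorry

theorem Gen.btw_total (h : Gen ω) (hu : u ∈ ball 0 N) (hv : v ∈ ball 0 N) (hx : Btw N ω u x v)
    (hz : Btw N ω u z v) : Btw N ω u x z ∨ Btw N ω u z x := by
  sorry

theorem Gen.btw_antisymm (h : Gen ω) (hu : u ∈ ball 0 N) (h1 : Btw N ω u x z)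
    (h2 : Btw N ω u z x) : x = z := by
  sorry

theorem Gen.eq_of_len_eq (h : Gen ω) (hu : u ∈ ball 0 N) (hv : v ∈ ball 0 N) (hx : Btw N ω u x v)
    (hz : Btw N ω u z v) (hl : len N ω u x = len N ω u z) : x = z := by
  sorry

/-- convexity -/
theorem Gen.btw_convex (h : Gen ω) (hu : u ∈ ball 0 N) (hv : v ∈ ball 0 N) {p p' : V}
    (h1 : Btw N ω u p v) (h2 : Btw N ω u p' v) (h3 : Btw N ω p z p') : Btw N ω u z v := by
  sorry

/-- a point of the geodesic lies before or after another one -/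
theorem Gen.btw_split (h : Gen ω) (hu : u ∈ ball 0 N) (hv : v ∈ ball 0 N) (hx : Btw N ω u x v)
    (hz : Btw N ω u z v) : Btw N ω u z x ∨ Btw N ω x z v := by
  sorry

theorem Gen.eq_of_btw_btw (h : Gen ω) (hu : u ∈ ball 0 N) (hv : v ∈ ball 0 N) (hx : Btw N ω u x v)
    (h1 : Btw N ω u z x) (h2 : Btw N ω x z v) : z = x := by
  sorry

theorem Gen.edges_subset (h : Gen ω) (hu : u ∈ ball 0 N) (hv : v ∈ ball 0 N) {p p' : V}
    (h1 : Btw N ω u p v) (h2 : Btw N ω u p' v) {e : Ed} (he : e ∈ (geo N ω p p').edges) :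
    e ∈ (geo N ω u v).edges := by
  sorry

/-- a geodesic has at most `len + 1` points -/
theorem Gen.num_btw_le (h : Gen ω) (hu : u ∈ ball 0 N) (hv : v ∈ ball 0 N) (S : Finset V) :
    num S (fun z => Btw N ω u z v) ≤ len N ω u v + 1 := by
  sorry

end Vale.Agent.P158
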