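import Vale.Agent.P158.GC

/-! A member geodesic has many admissible pairs. -/

open scoped NNReal ENNReal
open MeasureTheory

namespace Vale.Agent.P158

/-- few windows of length `2 J` of a walk contain more than `J` edges outside `F`. Hint: such a
window contains at least `J + 1` of the positions `k` with `ω (p.edges[k]) ∉ F`, and every position
lies in at most `2 J` windows. -/
theorem num_bad_windows (F : Set ℝ≥0) (ω : Cfg) {u v : V} (p : lat.Walk u v) (m J : ℕ)
    (h : m + 2 * J ≤ p.length + 1) :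
    num (Finset.range m) (fun i => cnt F ω ((p.drop i).take (2 * J)) < J) ≤ 2 * cnt Fᶜ ω p := by
  sorry

/-- Hint: let `i0` be the first and `i1` the last index of `geo w y` in `ball 0 (2 s)`. The points
`b` are the vertices of index in `[i0 - s, i0)` with a good window, the points `a` those of index in
`(i1, i1 + s]`; apply the Peierls event to the pieces `[i0 - s, i0 + 2J]` and `[i1, i1 + s + 2J]`.
Use `Mem.nearMin` and `gc_len` with `x = 0`, `r = 4 s`. -/
theorem id_pairs {A K : ℝ} {b0 : ℝ≥0} {C1 N s J : ℕ} {F : Set ℝ≥0} {ω : Cfg} {g : V × V}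
    {w y x : V} (hb0 : 0 < b0) (hA : 0 < A) (hC : 2 * (A / b0 + 1) ≤ C1) (hg : Gen ω)
    (hG : Good A b0 0 (4 * s) 0 ω) (hP : Pe F 0 (3 * s) s 0 ω) (hs : 1 ≤ s) (hJ : 2 * J ≤ s)
    (hN : 20 * s ≤ N) (hgr : g ∈ RR N) (hw : w ∈ ring 0 N) (hy : y ∈ ring 0 N)
    (hm : Mem N s K g w y ω) (hx : x ∈ ball 0 s) (hb : Btw N ω w x y) :
    ∃ Bs As : Finset V, s ≤ 2 * Bs.card ∧ s ≤ 2 * As.card ∧
      ∀ b ∈ Bs, ∀ a ∈ As, Adm N s C1 F J g (2 * K) w y b a ω := by
  sorry

end Vale.Agent.P158
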