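import Mathlib

open scoped NNReal

namespace Vale.Agent.P158

/-- Vertices of the square lattice. -/
abbrev V : Type := ℤ × ℤ

/-- The nearest-neighbour graph on the square lattice. -/
def lat : SimpleGraph V where
  Adj u v := |u.1 - v.1| + |u.2 - v.2| = 1
  symm := ⟨fun u v h => by rw [abs_sub_comm v.1, abs_sub_comm v.2]; exact h⟩
  loopless := ⟨fun u h => by simp at h⟩

/-- Sum of the weights of the edges traversed by a finite nearest-neighbour walk. -/
noncomputable def walkTime (t : lat.edgeSet → ℝ≥0) {x y : V} (p : lat.Walk x y) : ℝ :=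
  (p.darts.map fun d => (t ⟨d.edge, d.edge_mem⟩ : ℝ)).sum

/-- The passage time. -/
noncomputable def passage (t : lat.edgeSet → ℝ≥0) (x y : V) : ℝ :=
  ⨅ p : lat.Walk x y, walkTime t p

/-- A doubly infinite geodesic. -/
def IsBigeodesic (t : lat.edgeSet → ℝ≥0) (v : ℤ → V) : Prop :=
  Function.Injective v ∧ ∃ h : ∀ i, lat.Adj (v i) (v (i + 1)), ∀ i j : ℤ, i < j →
    ∑ k ∈ Finset.Ico i j, (t ⟨s(v k, v (k + 1)), h k⟩ : ℝ) = passage t (v i) (v j)

end Vale.Agent.P158
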