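import Vale.Agent.P158.Defs

/-! Resampling one edge; generic configurations. -/

open scoped NNReal ENNReal
open MeasureTheory

namespace Vale.Agent.P158

variable {G : Measure ℝ≥0} [IsProbabilityMeasure G]

/-- Hint: `Measure.eq_infinitePi`; compute the measure of a box. -/
theorem measurePreserving_update (G : Measure ℝ≥0) [IsProbabilityMeasure G] (e : Ed) :
    MeasurePreserving (fun p : Cfg × ℝ≥0 => Function.update p.1 e p.2) ((mu G).prod G) (mu G) := by
  sorry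

theorem lintegral_update (e : Ed) {f : Cfg → ℝ≥0∞} (hf : Measurable f) :
    ∫⁻ ω, f ω ∂mu G = ∫⁻ ω, ∫⁻ t, f (Function.update ω e t) ∂G ∂mu G := by
  sorry

theorem measurableSet_gen : MeasurableSet {ω : Cfg | Gen ω} := by
  sorry

/-- Hint: `Gen` fails only if some nonzero `c : Ed →₀ ℤ` (a countable type) has
`∑ c e * ω e = 0`; use `lintegral_update` at an `e` with `c e ≠ 0`. -/
theorem ae_gen [NullSingletonClass G] : ∀ᵐ ω ∂mu G, Gen ω := by
  sorry

/-- Hint: a relation with `c e = 0` is a relation for `ω`; one with `c e ≠ 0` determines `t`. -/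
theorem countable_not_gen {ω : Cfg} (h : Gen ω) (e : Ed) :
    {t : ℝ≥0 | ¬ Gen (Function.update ω e t)}.Countable := by
  sorry

/-- Single edge resampling, for arbitrary sets. Hint: let `H = toMeasurable (mu G) E'` and
`E_e = {ω | ofReal g ≤ G {t | update ω e t ∈ H}}` (measurable); `E ∩ Gen ⊆ ⋃ e ∈ A, E_e` and
`ofReal g * mu E_e ≤ mu H` by `lintegral_update` and Markov. -/
theorem se [NullSingletonClass G] (A : Finset Ed) {g : ℝ} (E E' : Set Cfg)
    (h : ∀ ω ∈ E, Gen ω → ∃ e ∈ A, ∃ I : Set ℝ≥0, g ≤ G.real I ∧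
      ∀ t ∈ I, Gen (Function.update ω e t) → Function.update ω e t ∈ E') :
    g * (mu G).real E ≤ A.card * (mu G).real E' := by
  sorry

/-- the form used with a lowering scheme -/
theorem se_low [NullSingletonClass G] {F : Set ℝ≥0} {ζ' ζ g : ℝ} (hL : Low G F ζ' ζ g) (A : Finset Ed)
    (E E' : Set Cfg)
    (h : ∀ ω ∈ E, Gen ω → ∃ e ∈ A, ω e ∈ F ∧ ∀ t : ℝ≥0, (ω e : ℝ) ≤ t + ζ → (t : ℝ) + ζ' ≤ ω e →
      Gen (Function.update ω e t) → Function.update ω e t ∈ E') :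
    (mu G).real E ≤ A.card / g * (mu G).real E' := by
  sorry

/-- a chain of resamplings -/
theorem se_chain [NullSingletonClass G] {F : Set ℝ≥0} {ζ' ζ g : ℝ} (hL : Low G F ζ' ζ g) (A : Finset Ed)
    (E : ℕ → Set Cfg) (k : ℕ)
    (h : ∀ i < k, ∀ ω ∈ E i, Gen ω → ∃ e ∈ A, ω e ∈ F ∧ ∀ t : ℝ≥0, (ω e : ℝ) ≤ t + ζ →
      (t : ℝ) + ζ' ≤ ω e → Gen (Function.update ω e t) → Function.update ω e t ∈ E (i + 1)) :
    (mu G).real (E 0) ≤ (A.card / g) ^ k * (mu G).real (E k) := by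
  sorry

/-- a chain of resamplings that stops in `S`; the last event contains no generic point -/
theorem se_stop [NullSingletonClass G] {F : Set ℝ≥0} {ζ' ζ g : ℝ} (hL : Low G F ζ' ζ g) (A : Finset Ed)
    (E : ℕ → Set Cfg) (S : Set Cfg) (k : ℕ) (hk : ∀ ω ∈ E k, ¬ Gen ω)
    (h : ∀ i < k, ∀ ω ∈ E i, Gen ω → ∃ e ∈ A, ω e ∈ F ∧ ∀ t : ℝ≥0, (ω e : ℝ) ≤ t + ζ →
      (t : ℝ) + ζ' ≤ ω e → Gen (Function.update ω e t) →
        Function.update ω e t ∈ E (i + 1) ∨ Function.update ω e t ∈ S) :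
    (mu G).real (E 0) ≤ k * (A.card / g + 1) ^ k * (mu G).real S := by
  sorry

theorem real_le_of_gen [NullSingletonClass G] {E E' : Set Cfg} (h : ∀ ω ∈ E, Gen ω → ω ∈ E') :
    (mu G).real E ≤ (mu G).real E' := by
  sorry

end Vale.Agent.P158
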