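import Vale.Agent.P158.Upd

/-! Measurability. -/

open scoped NNReal ENNReal
open MeasureTheory

namespace Vale.Agent.P158

variable {N : ℕ} {u v x : V}

theorem measurable_coord (e : Ed) : Measurable fun ω : Cfg => (ω e : ℝ) := by
  sorry

theorem measurable_cost (p : lat.Walk u v) : Measurable fun ω => cost ω p := by
  sorry

theorem measurable_cnt {F : Set ℝ≥0} (hF : MeasurableSet F) (p : lat.Walk u v) :
    Measurable fun ω => cnt F ω p := by
  sorry

/-- Hint: `{T < c}` is a countable union -/
theorem measurable_T (hu : u ∈ ball 0 N) (hv : v ∈ ball 0 N) :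
    Measurable fun ω => T N ω u v := by
  sorry

theorem measurableSet_btw (hu : u ∈ ball 0 N) (hv : v ∈ ball 0 N) (x : V) :
    MeasurableSet {ω | Btw N ω u x v} := by
  sorry

theorem measurable_gd {y y' : V} (hy : y ∈ ball 0 N) (hy' : y' ∈ ball 0 N) (hx : x ∈ ball 0 N) :
    Measurable fun ω => gd N ω y y' x := by
  sorry

theorem measurable_exc (hu : u ∈ ball 0 N) (hx : x ∈ ball 0 N) (hv : v ∈ ball 0 N) :
    Measurable fun ω => exc N ω u x v := by
  sorry

theorem measurableSet_onG (N : ℕ) (x : V) : MeasurableSet {ω | OnG N x ω} := by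
  sorry

theorem measurableSet_opt {s : ℕ} (hN : 8 * s ≤ N) {g : V × V} (hg : g ∈ RR N) (u : V) :
    MeasurableSet {ω | Opt N s g u ω} := by
  sorry

theorem measurable_ind {P : Cfg → Prop} (h : MeasurableSet {ω | P ω}) :
    Measurable fun ω => ind (P ω) := by
  sorry

theorem measurable_num {α : Type} (s : Finset α) {P : α → Cfg → Prop}
    (h : ∀ a ∈ s, MeasurableSet {ω | P a ω}) : Measurable fun ω => num s fun a => P a ω := by
  sorry

theorem measurable_ovw (r : ℕ) (M : ℝ≥0) : Measurable (ovw r M) := by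
  sorry

end Vale.Agent.P158
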