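import Vale.Agent.P158.GC
import Vale.Agent.P158.SE
import Vale.Agent.P158.TMeas

/-! Near-minimal points: one point. -/

open scoped NNReal ENNReal
open MeasureTheory

namespace Vale.Agent.P158

variable {G : Measure ℝ≥0} [IsProbabilityMeasure G]

theorem Nr.nonneg {N s L0 J : ℕ} {F : Set ℝ≥0} {g : V × V} {κ : ℝ} {z : V} {ω : Cfg}
    (hL : L0 ≤ s) (hN : 8 * s < N) (hg : g ∈ RR N) (hz : z ∈ ball 0 (3 * s))
    (h : Nr N s F L0 g κ J z ω) : 0 ≤ κ := by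
  sorry

/-- Hint: lower an `F` edge of `q`; take a minimiser `u` of the new configuration (`exists_opt`).
If `T g.1 u + T u g.2` did not drop the level improves; otherwise `mem_geo_of_T_lt` and
`Opt.of_btw` give a minimiser at an endpoint of the edge. -/
theorem nr_step {N s L0 J : ℕ} {F : Set ℝ≥0} {g : V × V} {κ ζ' : ℝ} {z : V} {ω : Cfg}
    (hL : L0 ≤ s) (hN : 8 * s < N) (hg : g ∈ RR N) (hz : z ∈ ball 0 (3 * s)) (hζ : 0 ≤ ζ')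
    (hJ : 1 ≤ J) (h : Nr N s F L0 g κ J z ω) :
    ∃ e ∈ (ball z L0).sym2, ω e ∈ F ∧ ∀ t : ℝ≥0, (t : ℝ) + ζ' ≤ ω e →
      Nr N s F L0 g (κ - ζ') (J - 1) z (Function.update ω e t) ∨
        ∃ u ∈ ball z L0, Opt N s g u (Function.update ω e t) := by
  sorry

theorem Nr.update {N s L0 J : ℕ} {F : Set ℝ≥0} {g : V × V} {κ : ℝ} {z : V} {ω : Cfg}
    (hL : L0 ≤ s) (hN : 8 * s < N) (hg : g ∈ RR N) (hz : z ∈ ball 0 (3 * s))
    (h : Nr N s F L0 g κ J z ω) {e : Ed} {t : ℝ≥0} (h1 : t ≤ ω e) (h2 : (ω e : ℝ) ≤ t + 1) :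
    Nr N s F L0 g (κ + 2) (J - 1) z (Function.update ω e t) := by
  sorry

theorem Nr.mono {N s L0 J J' : ℕ} {F : Set ℝ≥0} {g : V × V} {κ κ' : ℝ} {z : V} {ω : Cfg}
    (h : Nr N s F L0 g κ J z ω) (hκ : κ ≤ κ') (hJ : J' ≤ J) : Nr N s F L0 g κ' J' z ω := by
  sorry

/-- Hint: `se_stop` with `E i = S i ∩ Nr (κ - i ζ') (J - i)` and the stopping set
`S k ∩ {∃ u ∈ ball z L0, Opt u}`; then `cnt_lemma` with `num_opt_le` (`x = 0`, `r = 4 s`). -/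
theorem mom_one [NullSingletonClass G] {F : Set ℝ≥0} {ζ' γ A : ℝ} (hF : Low G F ζ' 1 γ) {b0 : ℝ≥0}
    {C1 : ℕ} (hb0 : 0 < b0) (hA : 0 < A) (hC : 2 * (A / b0 + 1) ≤ C1) {N s L0 J k θ0 : ℕ}
    {g : V × V} {κ : ℝ} {S : ℕ → Set Cfg} (hS : Closed 1 (ball 0 (8 * s)).sym2 S)
    (hG : ∀ ω ∈ S k, Good A b0 0 (4 * s) θ0 ω) (hθ : θ0 ≤ 4 * s) (hκ : κ < k * ζ') (hk : k ≤ J)
    (hL : L0 ≤ s) (hN : 8 * s < N) (hg : g ∈ RR N) :
    ∑ z ∈ ball 0 (3 * s), (mu G).real {ω | ω ∈ S 0 ∧ Nr N s F L0 g κ J z ω} ≤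
      k * ((2 * L0 + 1) ^ 4 / γ + 1) ^ k * ((2 * L0 + 1) ^ 2 * (C1 * (4 * s) + 1)) *
        (mu G).real (S k) := by
  sorry

end Vale.Agent.P158
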