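import Vale.Agent.P158.Mom1

/-! Near-minimal points: moments. -/

open scoped NNReal ENNReal
open MeasureTheory

namespace Vale.Agent.P158

variable {G : Measure ℝ≥0} [IsProbabilityMeasure G]

theorem fam_closed {A : ℝ} {b0 : ℝ≥0} {N s J : ℕ} {F : Set ℝ≥0} {g : V × V} {κ : ℝ} {S0 : Set Cfg}
    {zs : List V} (hJ : 2 * J ≤ s) (hN : 8 * s < N) (hg : g ∈ RR N)
    (hS : Det {e | e ∉ (ball 0 (8 * s)).sym2} S0) (hz : ∀ z ∈ zs, z ∈ ball 0 (3 * s)) (θ0 : ℕ) :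
    Closed 1 (ball 0 (8 * s)).sym2 fun i => Fam A b0 N s F J g κ S0 zs (θ0 + i) := by
  sorry

theorem mom_step [NullSingletonClass G] {F : Set ℝ≥0} {ζ' γ A : ℝ} (hF : Low G F ζ' 1 γ)
    {b0 : ℝ≥0} {C1 : ℕ} (hb0 : 0 < b0) (hA : 0 < A) (hC : 2 * (A / b0 + 1) ≤ C1) (κ : ℝ)
    (θ0 : ℕ) : ∃ θ1 : ℕ, θ0 < θ1 ∧ ∀ J, θ1 ≤ J → ∃ C : ℝ, 0 ≤ C ∧ ∀ (s N : ℕ) (g : V × V)
      (S0 : Set Cfg) (zs : List V), 2 * J ≤ s → 8 * s < N → g ∈ RR N →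
      Det {e | e ∉ (ball 0 (8 * s)).sym2} S0 → (∀ z ∈ zs, z ∈ ball 0 (3 * s)) →
      ∑ z ∈ ball 0 (3 * s), (mu G).real (Fam A b0 N s F J g κ S0 (z :: zs) θ0) ≤
        C * s * (mu G).real (Fam A b0 N s F J g κ S0 zs θ1) := by
  sorry

theorem mom_two [NullSingletonClass G] {F : Set ℝ≥0} {ζ' γ A : ℝ} (hF : Low G F ζ' 1 γ)
    {b0 : ℝ≥0} {C1 : ℕ} (hb0 : 0 < b0) (hA : 0 < A) (hC : 2 * (A / b0 + 1) ≤ C1) (κ : ℝ)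
    (θ0 : ℕ) : ∃ (J : ℕ) (C : ℝ), 0 ≤ C ∧ ∀ (s N : ℕ) (g : V × V) (S0 : Set Cfg),
      2 * J ≤ s → 8 * s < N → g ∈ RR N → Det {e | e ∉ (ball 0 (8 * s)).sym2} S0 →
      ∑ b ∈ ball 0 (3 * s), ∑ a ∈ ball 0 (3 * s),
        (mu G).real (Fam A b0 N s F J g κ S0 [b, a] θ0) ≤ C * s ^ 2 * (mu G).real S0 := by
  sorry

theorem mom_four [NullSingletonClass G] {F : Set ℝ≥0} {ζ' γ A : ℝ} (hF : Low G F ζ' 1 γ)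
    {b0 : ℝ≥0} {C1 : ℕ} (hb0 : 0 < b0) (hA : 0 < A) (hC : 2 * (A / b0 + 1) ≤ C1) (κ : ℝ)
    (θ0 : ℕ) : ∃ (J : ℕ) (C : ℝ), 0 ≤ C ∧ ∀ (s N : ℕ) (g : V × V) (S0 : Set Cfg),
      2 * J ≤ s → 8 * s < N → g ∈ RR N → Det {e | e ∉ (ball 0 (8 * s)).sym2} S0 →
      ∑ b ∈ ball 0 (3 * s), ∑ a ∈ ball 0 (3 * s), ∑ b' ∈ ball 0 (3 * s), ∑ a' ∈ ball 0 (3 * s),
        (mu G).real (Fam A b0 N s F J g κ S0 [b, a, b', a'] θ0) ≤ C * s ^ 4 * (mu G).real S0 := by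
  sorry

end Vale.Agent.P158
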