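import Vale.Agent.P158.Bd

/-! The four point lemma. -/

open scoped NNReal ENNReal
open MeasureTheory

namespace Vale.Agent.P158

/-- Hint. Let `c` be the closed walk `p` followed by the reversed arc from `bd N i` to `bd N k`
(`exists_arc`). For a face `f` (named by its lower left corner) let `φ f : ZMod 2` be the sum over
the darts `(a, b)` of `c` of the indicator that `a.1 = b.1 > f.1` and `{a.2, b.2} = {f.2, f.2+1}`.
(F1) for a vertical edge `s((x+1,y),(x+1,y+1))`, `φ (x,y) + φ (x+1,y)` is its count in `c`; for a
horizontal edge `s((x,y),(x+1,y))`, `φ (x,y-1) + φ (x,y)` is its count: prove by induction, for every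
walk `c` from `a` to `b`, the identity with the extra term `ψ a + ψ b`, where `ψ z` is the indicator
of `z.2 = y ∧ x < z.1`. (F2) `φ = 0` on faces outside the box (to the left use the same trick
with `ψ z` the indicator of `y < z.2`). (F3) if `z` is in the box and not on `p`, all faces inside the
box with corner `z` have the same value (edges at `z` that separate two inside faces are not on the
ring, hence not in `c`); adjacent vertices of the box share an inside face. So this value is
constant along `q`. At `bd N j` the edge to `bd N (j+1)` has count one, at `bd N l` the edge to
`bd N (l+1)` has count zero (`bd_inj`), and each has one face inside and one face outside. -/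
theorem four_point {N : ℕ} (hN : 1 ≤ N) {i j k l : ℤ} (hij : i < j) (hjk : j < k) (hkl : k < l)
    (hli : l < i + 8 * N) (p : lat.Walk (bd N i) (bd N k)) (q : lat.Walk (bd N j) (bd N l))
    (hp : In (ball 0 N) p) (hq : In (ball 0 N) q) : ∃ z ∈ p.support, z ∈ q.support := by
  sorry

end Vale.Agent.P158
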