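import Vale.Agent.P158.Upd
import Vale.Agent.P158.DomC

/-! Rungs: the deterministic part. -/

open scoped NNReal ENNReal
open MeasureTheory

namespace Vale.Agent.P158

variable {N D L L1 J : ℕ} {M ζ' : ℝ} {F : Set ℝ≥0} {X : Finset V} {b a b' a' x : V} {ω : Cfg}

/-- state after `k` lowerings -/
def RS (N D : ℕ) (M ζ' : ℝ) (F : Set ℝ≥0) (L L1 J : ℕ) (b a b' a' x : V) (k : ℕ) (ω : Cfg) : Prop :=
  Btw N ω b x a ∧ L ≤ len N ω x a ∧ PF F x 0 L (J - k) ω ∧
  ∃ W : lat.Walk b' a', In (ball 0 N) W ∧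
    (∀ v ∈ W.support, Btw N ω x v a → v ∈ ball x (L1 + D)) ∧
    (∀ e ∈ ((geo N ω x a).take L).edges, e ∈ W.edges) ∧
    cost ω W ≤ T N ω b' a' + 16 * D * M ∧
    ∀ q : lat.Walk b' a', In (ball 0 N) q →
      (∀ v ∈ q.support, Btw N ω x v a → v ∉ ball x (L1 + D)) →
      cost ω W + k * ζ' ≤ cost ω q + 16 * D * M

/-- final event -/
def RFin (N D : ℕ) (M : ℝ) (L1 : ℕ) (b a b' a' x : V) (ω : Cfg) : Prop :=
  Btw N ω b x a ∧
  (∃ W : lat.Walk b' a', In (ball 0 N) W ∧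
    (∀ v ∈ W.support, Btw N ω x v a → v ∈ ball x (L1 + D)) ∧
    cost ω W ≤ T N ω b' a' + 16 * D * M) ∧
  ∀ q : lat.Walk b' a', In (ball 0 N) q →
    (∀ v ∈ q.support, Btw N ω x v a → v ∉ ball x (L1 + D)) →
    T N ω b' a' + 16 * D * M < cost ω q

/-- Hint: `p`, `p2` are the points of `geo b' a'` near `x`, `x2`. If `p` comes first (`btw_total`)
the detour is `geo b' p ++ (p to x) ++ geo x x2 ++ (x2 to p2) ++ geo p2 a'`, with connecting walks
from `Cheap.exists_walk`; otherwise traverse `geo x x2` backwards. -/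
theorem rs_zero (hg : Gen ω) (hb : b ∈ ball 0 N) (ha : a ∈ ball 0 N) (hb' : b' ∈ ball 0 N)
    (ha' : a' ∈ ball 0 N) (hX : ∀ x ∈ X, ball x D ⊆ ball 0 N) (hx : x ∈ X)
    (h : Double N D M F L L1 J X b a b' a' x ω) : RS N D M ζ' F L L1 J b a b' a' x 0 ω := by
  sorry

theorem rs_step (hg : Gen ω) (hb : b ∈ ball 0 N) (ha : a ∈ ball 0 N) (hb' : b' ∈ ball 0 N)
    (ha' : a' ∈ ball 0 N) (hL : L ≤ L1) (hζ : 0 ≤ ζ') {k : ℕ} (hk : k < J)
    (h : RS N D M ζ' F L L1 J b a b' a' x k ω) :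
    ∃ e ∈ (ball x L).sym2, ω e ∈ F ∧ ∀ t : ℝ≥0, (t : ℝ) + ζ' ≤ ω e →
      Gen (Function.update ω e t) →
        RS N D M ζ' F L L1 J b a b' a' x (k + 1) (Function.update ω e t) := by
  sorry

theorem rs_fin (hJ : 32 * D * M < J * ζ') (h : RS N D M ζ' F L L1 J b a b' a' x J ω) :
    RFin N D M L1 b a b' a' x ω := by
  sorry

/-- two final points are within distance `2 (L1 + D)` -/
theorem num_rfin (hg : Gen ω) (hb : b ∈ ball 0 N) (ha : a ∈ ball 0 N) (X : Finset V) :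
    num X (fun x => RFin N D M L1 b a b' a' x ω) ≤ (4 * (L1 + D) + 1) ^ 2 := by
  sorry

/-- Hint: sort by `len b x / L1`; in each window all these points are within index distance less
than `L` after the first one. -/
theorem num_not_double (hg : Gen ω) (hb : b ∈ ball 0 N) (ha : a ∈ ball 0 N) (hL1 : 1 ≤ L1)
    {n1 : ℕ} (hn : len N ω b a ≤ n1) :
    num X (fun x => Rung N D M F L J b a b' a' x ω ∧ ¬ Double N D M F L L1 J X b a b' a' x ω) ≤
      (n1 / L1 + 1) * L := by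
  sorry

end Vale.Agent.P158
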