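import Vale.Agent.P158.RL1
import Vale.Agent.P158.SE
import Vale.Agent.P158.TMeas

/-! Double rungs are rare. -/

open scoped NNReal ENNReal
open MeasureTheory

namespace Vale.Agent.P158

variable {G : Measure ℝ≥0} [IsProbabilityMeasure G]

theorem measurableSet_rfin {N : ℕ} (D : ℕ) (M : ℝ) (L1 : ℕ) {b a b' a' : V} (hb : b ∈ ball 0 N)
    (ha : a ∈ ball 0 N) (hb' : b' ∈ ball 0 N) (ha' : a' ∈ ball 0 N) (x : V) :
    MeasurableSet {ω | RFin N D M L1 b a b' a' x ω} := by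
  sorry

/-- Hint: `se_chain` with the events `RS k ∩ S k`, then `cnt_lemma` and `num_rfin` -/
theorem rung_lemma [NullSingletonClass G] {F : Set ℝ≥0} {ζ' ζ g : ℝ} (hF : Low G F ζ' ζ g)
    {N D L L1 J : ℕ} {M : ℝ} {X : Finset V} {b a b' a' : V} {E : Finset Ed} {S : ℕ → Set Cfg}
    (hS : Closed ζ E S) (hE : ∀ x ∈ X, (ball x L).sym2 ⊆ E) (hX : ∀ x ∈ X, ball x D ⊆ ball 0 N)
    (hb : b ∈ ball 0 N) (ha : a ∈ ball 0 N) (hb' : b' ∈ ball 0 N) (ha' : a' ∈ ball 0 N)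
    (hL : L ≤ L1) (hJ : 32 * D * M < J * ζ') :
    ∑ x ∈ X, (mu G).real {ω | Double N D M F L L1 J X b a b' a' x ω ∧ ω ∈ S 0} ≤
      ((2 * L + 1) ^ 4 / g) ^ J * (4 * (L1 + D) + 1) ^ 2 * (mu G).real (S J) := by
  sorry

theorem sum_real_rf {N s : ℕ} {W : ℝ} {Rf : V × V → Set Cfg} (h : RefSys N s W Rf) :
    ∑ g ∈ RR N, (mu G).real (Rf g) ≤ W := by
  sorry

end Vale.Agent.P158
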