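import Vale.Agent.P158.Planar
import Vale.Agent.P158.Geo

/-! Crossings of rectangles. -/

open scoped NNReal ENNReal
open MeasureTheory

namespace Vale.Agent.P158

theorem mem_rect {x v : V} {a b : ℕ} :
    v ∈ rect x a b ↔ x.1 ≤ v.1 ∧ v.1 < x.1 + a ∧ x.2 ≤ v.2 ∧ v.2 < x.2 + b := by
  simp [rect, and_assoc]

/-- Hint: take `N` so large that the rectangle is strictly inside `ball 0 N`, extend `p` by
horizontal and `q` by vertical segments to the four sides (`bd_right`, `bd_top`, `bd_left`,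
`bd_bot`) and use `four_point`. -/
theorem rect_cross {x : V} {a b : ℕ} {u v u' v' : V} (p : lat.Walk u v) (q : lat.Walk u' v')
    (hp : In (rect x a b) p) (hq : In (rect x a b) q) (hu : u.1 = x.1) (hv : v.1 = x.1 + a - 1)
    (hu' : u'.2 = x.2) (hv' : v'.2 = x.2 + b - 1) : ∃ z ∈ p.support, z ∈ q.support := by
  sorry

/-- a walk from `f ≤ m` to `m' ≤ f` contains a piece inside the strip `m ≤ f ≤ m'` -/
theorem exists_strip {u v : V} (p : lat.Walk u v) (f : V → ℤ)
    (hf : ∀ a b, lat.Adj a b → |f b - f a| ≤ 1) {m m' : ℤ} (hm : m ≤ m') (hu : f u ≤ m)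
    (hv : m' ≤ f v) : ∃ (u' v' : V) (q : lat.Walk u' v'), f u' = m ∧ f v' = m' ∧
      (∀ z ∈ q.support, z ∈ p.support ∧ m ≤ f z ∧ f z ≤ m') ∧ ∀ e ∈ q.edges, e ∈ p.edges := by
  sorry

/-- a walk that crosses the vertical strip of the rectangle while staying at its heights meets a walk
that crosses the horizontal strip while staying at its abscissas -/
theorem cross_meet {x : V} {a b : ℕ} (ha : 1 ≤ a) (hb : 1 ≤ b) {u v u' v' : V} (p : lat.Walk u v)
    (q : lat.Walk u' v') (hp : ∀ z ∈ p.support, x.2 ≤ z.2 ∧ z.2 < x.2 + b)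
    (hq : ∀ z ∈ q.support, x.1 ≤ z.1 ∧ z.1 < x.1 + a) (hu : u.1 ≤ x.1) (hv : x.1 + a - 1 ≤ v.1)
    (hu' : u'.2 ≤ x.2) (hv' : x.2 + b - 1 ≤ v'.2) : ∃ z ∈ p.support, z ∈ q.support := by
  sorry

/-- join the start of `p` to the end of `q` through a common vertex -/
theorem exists_join {u v u' v' : V} (p : lat.Walk u v) (q : lat.Walk u' v')
    (h : ∃ z ∈ p.support, z ∈ q.support) : ∃ f : lat.Walk u v',
    (∀ z ∈ f.support, z ∈ p.support ∨ z ∈ q.support) ∧
      ∀ e ∈ f.edges, e ∈ p.edges ∨ e ∈ q.edges := by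
  sorry

end Vale.Agent.P158
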