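import Vale.Agent.P158.TV

/-! The number of reference pairs. -/

open scoped NNReal ENNReal
open MeasureTheory

namespace Vale.Agent.P158

variable {N r : ℕ} {ω : Cfg}

/-- Hint: for `x ∈ ball 0 r` the geodesics to `bd t` and to `bd (t+1)` meet the fence `f`, so by
`gd_le_of_btw`, `gd_ge_of_btw` the oscillation is at most the sum over the darts `d` of `f` of
`|gd d.fst - gd d.snd|`; exchange the sums and use `tv_bd` with `B = 2 * ω d.edge`. -/
theorem cum_le {A : ℝ} (hr : 2 * r ≤ N) (h : Fence A 0 r ω) {u : ℤ} (hu : u < 8 * N) :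
    cum N r ω u ≤ 6 * A * r := by
  sorry

/-- Hint: `exc_sandwich`, `exists_osc`, and `tv_bd` for every pair of points of `ball 0 r` -/
theorem cum_small (hN : 1 ≤ N) (hr : r ≤ N) {E q : ℝ} (h : ¬ Bad N r E q ω) {u u' v : ℤ}
    (h0 : 0 ≤ u) (h1 : u ≤ u') (h2 : u' < v) (h3 : v < 8 * N)
    (e1 : exc N ω (bd N u) 0 (bd N v) ≤ E) (e2 : exc N ω (bd N u') 0 (bd N v) ≤ E) :
    cum N r ω u' - cum N r ω u ≤ 3 * q * (2 * r + 1) ^ 4 := by
  sorry

theorem card_chain (m : ℕ) (R : Finset (ℤ × ℤ)) (h0 : ∀ p ∈ R, 0 ≤ p.1 ∧ p.1 ≤ p.2 ∧ p.2 ≤ m)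
    (h : ∀ p ∈ R, ∀ p' ∈ R, p.1 + p.2 = p'.1 + p'.2 → p'.1 ≤ p.1 + 1) :
    R.card ≤ 2 * (2 * m + 1) := by
  sorry

/-- Hint: `g = (bd t, bd t')` is determined by the pair of cells `(cell t, cell t')`. Two pairs of
cells `i < i' ≤ j' < j` with the same sum come from indices `u < u' ≤ v' < v`; `quad` gives
`exc u' v ≤ 2 E`, and `cum_small` gives `i' ≤ i + 1`. -/
theorem num_pre_le {A K E q : ℝ} (hK : 0 < K) (hr : 2 * r ≤ N) (h : Fence A 0 r ω)
    (hB : ¬ Bad N r (2 * E) q ω) (hq : 3 * q * (2 * r + 1) ^ 4 ≤ K) :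
    (num (RR N) (Pre N r K E ω) : ℝ) ≤ 48 * A * r / K + 4 := by
  sorry

end Vale.Agent.P158
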