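import Vale.Agent.P158.TV
import Vale.Agent.P158.TMeas

/-! The reference system: measurability and the covering property. -/

open scoped NNReal ENNReal
open MeasureTheory

namespace Vale.Agent.P158

variable {N r s : ℕ} {ω : Cfg}

/-- the reference system -/
def refSet (N s : ℕ) (K E W : ℝ) (M : ℝ≥0) (g : V × V) : Set Cfg :=
  {ω | Pre N (8 * s) K E (ovw (8 * s) M ω) g ∧
    (num (RR N) (Pre N (8 * s) K E (ovw (8 * s) M ω)) : ℝ) ≤ W}

theorem measurableSet_pre (hN : 1 ≤ N) (hr : r ≤ N) (K E : ℝ) (g : V × V) :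
    MeasurableSet {ω | Pre N r K E ω g} := by
  sorry

theorem refSys_refSet (hN : 1 ≤ N) (hs : 8 * s ≤ N) (K E : ℝ) {W : ℝ} (hW : 0 ≤ W) (M : ℝ≥0) :
    RefSys N s W (refSet N s K E W M) := by
  sorry

theorem Fence.ovw {A : ℝ} (M : ℝ≥0) (h : Fence A 0 r ω) : Fence A 0 r (ovw r M ω) := by
  sorry

/-- Hint: `T x y ≤ T x z + T^M z y` for all `z ∈ ball 0 r` (`T_mono`), with equality for the last
vertex `z` of `geo x y` in `ball 0 r`. -/
theorem gd_le_osc_ovw (hr : r < N) {M : ℝ≥0} (hc : Cheap 0 r M ω) {y y' x x' : V}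
    (hy : y ∈ ring 0 N) (hy' : y' ∈ ring 0 N) (hx : x ∈ ball 0 r) (hx' : x' ∈ ball 0 r) :
    gd N ω y y' x - gd N ω y y' x' ≤ osc N r (ovw r M ω) y y' := by
  sorry

/-- Hint: use the first and the last vertex of the geodesic in `ball 0 r` -/
theorem exc_ovw_le (hr : r < N) {M : ℝ≥0} (hc : Cheap 0 r M ω) {w y x : V} (hw : w ∈ ring 0 N)
    (hy : y ∈ ring 0 N) (hx : x ∈ ball 0 r) (h : Btw N ω w x y) :
    exc N (ovw r M ω) w 0 y ≤ 8 * r * M := by
  sorry

theorem cover_refSet (hs : 8 * s < N) {K W : ℝ} (hK : 0 < K) {M : ℝ≥0} (hc : Cheap 0 (8 * s) M ω)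
    (hW : (num (RR N) (Pre N (8 * s) K (64 * s * M) (ovw (8 * s) M ω)) : ℝ) ≤ W) :
    Cover N s K (refSet N s K (64 * s * M) W M) ω := by
  sorry

end Vale.Agent.P158
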