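import Vale.Agent.P158.Rect

/-! The shell around a point. -/

open scoped NNReal ENNReal
open MeasureTheory

namespace Vale.Agent.P158

/-- Hint: replace the five crossings by their `bypass` (paths inside a rectangle with `8 n ^ 2`
vertices, so of cost at most `8 M n ^ 2`). Blocking: with coordinates relative to `a`, let
`h v = max (max (v.1 + 1) (-v.1)) (max (v.2 + 1) (-v.2))`; stop `p` at the first time `h = 3 n`
(`first_hit`) and use `cross_meet` in the rectangle along the side that is reached. The corners and
the radial walk are joined by `cross_meet` and `exists_merge` (cost `9 * 8 M n ^ 2`). -/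
theorem shell {M : ℝ≥0} {a : V} {n : ℕ} {ω : Cfg} (hn : 1 ≤ n) (h : Sh M a n ω) :
    ∃ (u v : V) (f : lat.Walk u v), In (ball a (8 * n)) f ∧ cost ω f ≤ 100 * M * n ^ 2 ∧
      (∀ (b c : V) (p : lat.Walk b c), nrm (b - a) < 2 * n → 3 * n < nrm (c - a) →
        ∃ z ∈ p.support, z ∈ f.support) ∧
      ∃ (u' v' : V) (q : lat.Walk u' v'), (∀ z ∈ q.support, z ∈ f.support) ∧
        nrm (u' - a) < n ∧ 8 * n ≤ nrm (v' - a) + 1 := by
  sorry

end Vale.Agent.P158
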