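import Vale.Agent.P158.Planar
import Vale.Agent.P158.Geo
import Vale.Agent.P158.DomC

/-! Quadrangle inequality, unimodality and total variation. -/

open scoped NNReal ENNReal
open MeasureTheory

namespace Vale.Agent.P158

variable {N r : ℕ} {ω : Cfg}

theorem quad (hN : 1 ≤ N) (ω : Cfg) {i j k l : ℤ} (hij : i ≤ j) (hjk : j ≤ k) (hkl : k ≤ l)
    (hli : l ≤ i + 8 * N) : T N ω (bd N i) (bd N l) + T N ω (bd N j) (bd N k) ≤
      T N ω (bd N i) (bd N k) + T N ω (bd N j) (bd N l) := by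
  sorry

/-- Hint: `four_point` for `(geo a (bd i)).reverse ++ geo a (bd k)` and the same with `a'`, `j`, `l`;
at a common vertex `v` look at `T a v - T a' v`. -/
theorem four_alt (hN : 1 ≤ N) (ω : Cfg) {a a' : V} (ha : a ∈ ball 0 N) (ha' : a' ∈ ball 0 N)
    {i j k l : ℤ} (hij : i < j) (hjk : j < k) (hkl : k < l) (hli : l < i + 8 * N) :
    min (T N ω a (bd N j) - T N ω a' (bd N j)) (T N ω a (bd N l) - T N ω a' (bd N l)) ≤
      max (T N ω a (bd N i) - T N ω a' (bd N i)) (T N ω a (bd N k) - T N ω a' (bd N k)) := by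
  sorry

/-- Hint: take positions of the maximum and of the minimum; `f` is monotone on each of the three
pieces they cut. -/
theorem tv_abstract (f : ℤ → ℝ) {u u' : ℤ} (h : u ≤ u') {B : ℝ}
    (h1 : ∀ i j k l, u ≤ i → i < j → j < k → k < l → l ≤ u' → min (f j) (f l) ≤ max (f i) (f k))
    (h2 : ∀ i j k l, u ≤ i → i < j → j < k → k < l → l ≤ u' → min (f i) (f k) ≤ max (f j) (f l))
    (hB : ∀ i j, u ≤ i → i ≤ u' → u ≤ j → j ≤ u' → f i - f j ≤ B) :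
    ∑ t ∈ Finset.Ico u u', |f (t + 1) - f t| ≤ 3 * B := by
  sorry

theorem tv_bd (hN : 1 ≤ N) (ω : Cfg) {a a' : V} (ha : a ∈ ball 0 N) (ha' : a' ∈ ball 0 N)
    {u u' : ℤ} (h : u ≤ u') (h' : u' < u + 8 * N) {B : ℝ}
    (hB : ∀ i j, u ≤ i → i ≤ u' → u ≤ j → j ≤ u' →
      gd N ω (bd N j) (bd N i) a - gd N ω (bd N j) (bd N i) a' ≤ B) :
    ∑ t ∈ Finset.Ico u u',
      |gd N ω (bd N t) (bd N (t + 1)) a - gd N ω (bd N t) (bd N (t + 1)) a'| ≤ 3 * B := by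
  sorry

theorem exc_symm {u x v : V} (hu : u ∈ ball 0 N) (hx : x ∈ ball 0 N) (hv : v ∈ ball 0 N) :
    exc N ω u x v = exc N ω v x u := by
  sorry

theorem exc_sandwich (hN : 1 ≤ N) (ω : Cfg) {u t u' v : ℤ} (h1 : u ≤ t) (h2 : t ≤ u')
    (h3 : u' < v) (h4 : v < u + 8 * N) : exc N ω (bd N t) 0 (bd N v) ≤
      max (exc N ω (bd N u) 0 (bd N v)) (exc N ω (bd N u') 0 (bd N v)) := by
  sorry

theorem gd_sub_le_osc (N : ℕ) (ω : Cfg) (y y' : V) {x x' : V} (hx : x ∈ ball 0 r)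
    (hx' : x' ∈ ball 0 r) : gd N ω y y' x - gd N ω y y' x' ≤ osc N r ω y y' := by
  sorry

theorem exists_osc (N r : ℕ) (ω : Cfg) (y y' : V) :
    ∃ x ∈ ball 0 r, ∃ x' ∈ ball 0 r, osc N r ω y y' = gd N ω y y' x - gd N ω y y' x' := by
  sorry

theorem osc_nonneg (N r : ℕ) (ω : Cfg) (y y' : V) : 0 ≤ osc N r ω y y' := by
  sorry

theorem cum_sub {u u' : ℤ} (hu : 0 ≤ u) (h : u ≤ u') : cum N r ω u' - cum N r ω u =
    ∑ t ∈ Finset.Ico u u', osc N r ω (bd N t) (bd N (t + 1)) := by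
  sorry

theorem cum_nonneg (N r : ℕ) (ω : Cfg) (u : ℤ) : 0 ≤ cum N r ω u := by
  sorry

theorem osc_le_cum {u u' : ℤ} (hu : 0 ≤ u) (h : u ≤ u') :
    osc N r ω (bd N u) (bd N u') ≤ cum N r ω u' - cum N r ω u := by
  sorry

end Vale.Agent.P158
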